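import Mathlib
import Crest.Agent.Lib.Comp.Approx

/-! A smooth transition function `F` with `F' x = (3/2) (F (3 x) - F (3 x - 2))`, equal to `0` on
`x ≤ 0` and to `1` on `1 ≤ x`, whose derivatives are effectively approximable. -/

set_option autoImplicit false
set_option linter.unusedVariables false

namespace Crest.Agent.R126

open Crest.Agent.Lib.Comp Filter Topology
open scoped ContDiff

theorem hasDerivAt_list_sum {ι : Type*} (l : List ι) (f : ι → ℝ → ℝ) (f' : ι → ℝ) (x : ℝ)
    (h : ∀ i, HasDerivAt (f i) (f' i) x) :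
    HasDerivAt (fun z => (l.map fun i => f i z).sum) (l.map f').sum x := by
  induction l with
  | nil => simpa using hasDerivAt_const x (0 : ℝ)
  | cons a l ih => simpa using (h a).fun_add ih

theorem hasDerivAt_pos_pow (j : ℕ) (z : ℝ) :
    HasDerivAt (fun z : ℝ => (max z 0) ^ (j + 2)) ((j + 2) * (max z 0) ^ (j + 1)) z := by
  rcases lt_trichotomy z 0 with hz | rfl | hz
  · have : (fun z : ℝ => (max z 0) ^ (j + 2)) =ᶠ[𝓝 z] fun _ => 0 := by
      filter_upwards [gt_mem_nhds hz] with y hy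
      simp [max_eq_right hy.le]
    simpa [max_eq_right hz.le] using (hasDerivAt_const z (0 : ℝ)).congr_of_eventuallyEq this
  · have h1 : HasDerivWithinAt (fun z : ℝ => (max z 0) ^ (j + 2)) 0 (Set.Iic 0) 0 :=
      (hasDerivWithinAt_const (0 : ℝ) (Set.Iic 0) (0 : ℝ)).congr
        (fun y hy => by simp [max_eq_right (show y ≤ 0 from hy)]) (by simp)
    have h2 : HasDerivWithinAt (fun z : ℝ => (max z 0) ^ (j + 2)) 0 (Set.Ici 0) 0 := by
      have := (hasDerivAt_pow (j + 2) (0 : ℝ)).hasDerivWithinAt (s := Set.Ici 0)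
      simp only [Nat.add_succ_sub_one, ne_eq, Nat.add_eq_zero_iff, one_ne_zero, and_false,
        not_false_eq_true, zero_pow, mul_zero] at this
      exact this.congr (fun y hy => by simp [max_eq_left (show 0 ≤ y from hy)]) (by simp)
    have h3 := h1.union h2
    rw [Set.Iic_union_Ici, hasDerivWithinAt_univ] at h3
    simpa using h3
  · have : (fun z : ℝ => (max z 0) ^ (j + 2)) =ᶠ[𝓝 z] fun z => z ^ (j + 2) := by
      filter_upwards [lt_mem_nhds hz] with y hy
      simp [max_eq_left hy.le]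
    have h2 := (hasDerivAt_pow (j + 2) z).congr_of_eventuallyEq this
    simpa [max_eq_left hz.le] using h2

/-- Coefficients and shifts of the piecewise polynomial approximants. -/
def LG (m : ℕ) : List (ℚ × ℚ) :=
  Nat.rec [(1, 0), (-1, 1)] (fun m L => L.flatMap fun p =>
    [(p.1 / (2 * 3 ^ m * ((m : ℚ) + 2)), p.2), (-(p.1 / (2 * 3 ^ m * ((m : ℚ) + 2))), p.2 + 2 * 3 ^ m)]) m

/-- The rational values of the approximants. -/
def GQ (m : ℕ) (x : ℚ) : ℚ := ((LG m).map fun p => p.1 * (max (3 ^ m * x - p.2) 0) ^ (m + 1)).sum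

/-- The piecewise polynomial approximants. -/
noncomputable def G (m : ℕ) (x : ℝ) : ℝ :=
  ((LG m).map fun p => (p.1 : ℝ) * (max (3 ^ m * x - p.2) 0) ^ (m + 1)).sum

/-- An antiderivative of `G m`. -/
noncomputable def H (m : ℕ) (x : ℝ) : ℝ :=
  ((LG m).map fun p => (p.1 : ℝ) / (3 ^ m * (m + 2)) * (max (3 ^ m * x - p.2) 0) ^ (m + 2)).sum

theorem G_cast (m : ℕ) (x : ℚ) : G m x = GQ m x := by
  unfold G GQ
  rw [Rat.cast_list_sum, List.map_map]
  congr 2
  funext p
  simp

theorem hasDerivAt_H (m : ℕ) (x : ℝ) : HasDerivAt (H m) (G m x) x := by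
  refine hasDerivAt_list_sum _ _ _ x fun p => ?_
  have h1 : HasDerivAt (fun z : ℝ => 3 ^ m * z - p.2) (3 ^ m) x := by
    simpa using ((hasDerivAt_id x).const_mul ((3 : ℝ) ^ m)).sub_const (p.2 : ℝ)
  have h2 := ((hasDerivAt_pos_pow m _).comp x h1).const_mul ((p.1 : ℝ) / (3 ^ m * (m + 2)))
  refine h2.congr_deriv ?_
  field_simp

theorem list_sum_flatMap {ι κ : Type*} (l : List ι) (g : ι → List κ) (f : κ → ℝ) :
    ((l.flatMap g).map f).sum = (l.map fun i => ((g i).map f).sum).sum := by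
  induction l with
  | nil => simp
  | cons a l ih => simp [ih]

theorem list_sum_comb {ι : Type*} (l : List ι) (f g : ι → ℝ) (c : ℝ) :
    c * ((l.map f).sum - (l.map g).sum) = (l.map fun i => c * (f i - g i)).sum := by
  induction l with
  | nil => simp
  | cons a l ih => simp only [List.map_cons, List.sum_cons, ← ih]; ring

theorem G_succ (m : ℕ) (x : ℝ) : G (m + 1) x = 1 / 2 * (H m (3 * x) - H m (3 * x - 2)) := by
  have e : LG (m + 1) = (LG m).flatMap fun p =>
    [(p.1 / (2 * 3 ^ m * ((m : ℚ) + 2)), p.2), (-(p.1 / (2 * 3 ^ m * ((m : ℚ) + 2))), p.2 + 2 * 3 ^ m)] := rfl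
  unfold G H
  rw [e, list_sum_flatMap, list_sum_comb]
  congr 2
  funext p
  have e1 : (3 : ℝ) ^ (m + 1) * x - p.2 = 3 ^ m * (3 * x) - p.2 := by ring
  have e2 : (3 : ℝ) ^ (m + 1) * x - (p.2 + 2 * 3 ^ m) = 3 ^ m * (3 * x - 2) - p.2 := by ring
  simp only [List.map_cons, List.map_nil, List.sum_cons, List.sum_nil]
  push_cast
  rw [e1, e2]
  field_simp
  ring

theorem G_zero (x : ℝ) : G 0 x = max x 0 - max (x - 1) 0 := by
  simp [G, LG, sub_eq_add_neg]

theorem hasDerivAt_G_succ (m : ℕ) (x : ℝ) :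
    HasDerivAt (G (m + 1)) (3 / 2 * (G m (3 * x) - G m (3 * x - 2))) x := by
  have h1 : HasDerivAt (fun z : ℝ => 3 * z) 3 x := by simpa using (hasDerivAt_id x).const_mul 3
  have h2 := (((hasDerivAt_H m _).comp x h1).sub
    ((hasDerivAt_H m _).comp x (h1.sub_const 2))).const_mul (1 / 2)
  have e : G (m + 1) = fun x => 1 / 2 * (H m (3 * x) - H m (3 * x - 2)) := funext (G_succ m)
  rw [e]
  refine h2.congr_deriv ?_
  ring

theorem continuous_G (m : ℕ) : Continuous (G m) := by
  cases m with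
  | zero =>
    have e : G 0 = fun x => max x 0 - max (x - 1) 0 := funext G_zero
    rw [e]; fun_prop
  | succ m => exact continuous_iff_continuousAt.2 fun x => (hasDerivAt_G_succ m x).continuousAt

theorem G_succ_int (m : ℕ) (x : ℝ) : G (m + 1) x = 1 / 2 * ∫ z in (3 * x - 2)..(3 * x), G m z := by
  rw [G_succ, intervalIntegral.integral_eq_sub_of_hasDerivAt (fun z _ => hasDerivAt_H m z)
    ((continuous_G m).intervalIntegrable _ _)]

theorem G_of_nonpos (m : ℕ) (x : ℝ) (hx : x ≤ 0) : G m x = 0 := by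
  induction m generalizing x with
  | zero => rw [G_zero, max_eq_right hx, max_eq_right (by linarith)]; simp
  | succ m ih =>
    rw [G_succ_int, intervalIntegral.integral_congr (g := fun _ => 0)]
    · simp
    · intro z hz
      rw [Set.uIcc_of_le (by linarith)] at hz
      exact ih z (by linarith [hz.2])

theorem G_of_one_le (m : ℕ) (x : ℝ) (hx : 1 ≤ x) : G m x = 1 := by
  induction m generalizing x with
  | zero => rw [G_zero, max_eq_left (by linarith), max_eq_left (by linarith)]; simp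
  | succ m ih =>
    rw [G_succ_int, intervalIntegral.integral_congr (g := fun _ => 1)]
    · simp
    · intro z hz
      rw [Set.uIcc_of_le (by linarith)] at hz
      exact ih z (by linarith [hz.1])

theorem G_mem (m : ℕ) (x : ℝ) : 0 ≤ G m x ∧ G m x ≤ 1 := by
  induction m generalizing x with
  | zero =>
    rw [G_zero]
    rcases le_total x 0 with h | h <;> rcases le_total (x - 1) 0 with h' | h' <;>
      simp only [max_eq_left, max_eq_right, h, h'] <;> constructor <;> linarith
  | succ m ih =>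
    rw [G_succ_int]
    have h1 := intervalIntegral.integral_nonneg (μ := MeasureTheory.volume)
      (show 3 * x - 2 ≤ 3 * x by linarith) (fun z _ => (ih z).1)
    have h2 := intervalIntegral.integral_mono_on (μ := MeasureTheory.volume)
      (show 3 * x - 2 ≤ 3 * x by linarith) ((continuous_G m).intervalIntegrable _ _)
      (continuous_const.intervalIntegrable _ _) (fun z _ => (ih z).2)
    simp only [intervalIntegral.integral_const, smul_eq_mul] at h2
    constructor <;> linarith

theorem int_bound (g : ℝ → ℝ) (hg : Continuous g) (ε : ℝ) (h0 : ∀ z, z ≤ 0 → g z = 0)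
    (h1 : ∀ z, 1 ≤ z → g z = 0) (hb : ∀ z, |g z| ≤ ε) (u v : ℝ) (huv : u ≤ v) :
    |∫ z in u..v, g z| ≤ ε := by
  have hz : ∀ z, z ∉ Set.Icc (0 : ℝ) 1 → |g z| = 0 := by
    intro z hz
    rw [abs_eq_zero]
    by_cases h : z ≤ 0
    · exact h0 z h
    · exact h1 z (by by_contra hc; exact hz ⟨by linarith, by linarith⟩)
  have hint : MeasureTheory.Integrable fun z => |g z| :=
    hg.abs.integrable_of_hasCompactSupport (HasCompactSupport.intro isCompact_Icc hz)
  refine (intervalIntegral.abs_integral_le_integral_abs huv).trans ?_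
  rw [intervalIntegral.integral_of_le huv]
  refine (MeasureTheory.setIntegral_le_integral hint
    (Eventually.of_forall fun z => abs_nonneg _)).trans ?_
  rw [← MeasureTheory.setIntegral_eq_integral_of_forall_compl_eq_zero hz]
  have := MeasureTheory.norm_setIntegral_le_of_norm_le_const (μ := MeasureTheory.volume)
    (s := Set.Icc (0 : ℝ) 1) (f := fun z => |g z|) (C := ε) (by simp)
    (fun z _ => by simpa using hb z)
  simp only [Real.norm_eq_abs, Real.volume_real_Icc, sub_zero] at this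
  refine (le_abs_self _).trans (this.trans (by simp))

theorem G_diff (m : ℕ) (x : ℝ) : |G m x - G (m + 1) x| ≤ 1 / 2 ^ m := by
  induction m generalizing x with
  | zero =>
    have := G_mem 0 x
    have := G_mem 1 x
    rw [abs_le]; constructor <;> simp <;> linarith
  | succ m ih =>
    rw [G_succ_int m, G_succ_int (m + 1), ← mul_sub, ← intervalIntegral.integral_sub
      ((continuous_G _).intervalIntegrable _ _) ((continuous_G _).intervalIntegrable _ _), abs_mul]
    have := int_bound (fun z => G m z - G (m + 1) z) ((continuous_G _).sub (continuous_G _)) _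
      (fun z hz => by simp [G_of_nonpos _ z hz]) (fun z hz => by simp [G_of_one_le _ z hz]) ih
      (3 * x - 2) (3 * x) (by linarith)
    rw [abs_of_pos (by norm_num : (0 : ℝ) < 1 / 2), pow_succ]
    calc _ ≤ 1 / 2 * (1 / 2 ^ m : ℝ) := mul_le_mul_of_nonneg_left this (by norm_num)
      _ = _ := by field_simp

/-- The transition function. -/
noncomputable def F (x : ℝ) : ℝ := limUnder atTop fun m => G m x

theorem G_dist (x : ℝ) (m : ℕ) : dist (G m x) (G (m + 1) x) ≤ 2 / 2 / 2 ^ m := by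
  rw [Real.dist_eq]; simpa using G_diff m x

theorem tendsto_F (x : ℝ) : Tendsto (fun m => G m x) atTop (𝓝 (F x)) :=
  (cauchySeq_of_le_geometric_two (G_dist x)).tendsto_limUnder

theorem G_sub_F (m : ℕ) (x : ℝ) : |G m x - F x| ≤ 2 / 2 ^ m :=
  dist_le_of_le_geometric_two_of_tendsto (G_dist x) (tendsto_F x) m

theorem F_of_nonpos {x : ℝ} (hx : x ≤ 0) : F x = 0 :=
  tendsto_nhds_unique (tendsto_F x) (by simp [G_of_nonpos _ x hx])

theorem F_of_one_le {x : ℝ} (hx : 1 ≤ x) : F x = 1 :=
  tendsto_nhds_unique (tendsto_F x) (by simp [G_of_one_le _ x hx])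

theorem F_nonneg (x : ℝ) : 0 ≤ F x := ge_of_tendsto' (tendsto_F x) fun m => (G_mem m x).1

theorem F_le_one (x : ℝ) : F x ≤ 1 := le_of_tendsto' (tendsto_F x) fun m => (G_mem m x).2

theorem hasDerivAt_F (x : ℝ) : HasDerivAt F (3 / 2 * (F (3 * x) - F (3 * x - 2))) x := by
  refine hasDerivAt_of_tendstoUniformly (l := atTop) (f := fun m => G (m + 1))
    (f' := fun m x => 3 / 2 * (G m (3 * x) - G m (3 * x - 2)))
    (g' := fun x => 3 / 2 * (F (3 * x) - F (3 * x - 2))) ?_
    (Eventually.of_forall hasDerivAt_G_succ)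
    (fun x => (tendsto_add_atTop_iff_nat 1).2 (tendsto_F x)) x
  rw [Metric.tendstoUniformly_iff]
  intro ε hε
  have h1 : Tendsto (fun m : ℕ => (6 : ℝ) / 2 ^ m) atTop (𝓝 0) :=
    tendsto_const_nhds.div_atTop (tendsto_pow_atTop_atTop_of_one_lt one_lt_two)
  filter_upwards [h1.eventually (gt_mem_nhds hε)] with m hm x
  rw [Real.dist_eq]
  have h2 := abs_le.1 (G_sub_F m (3 * x))
  have h3 := abs_le.1 (G_sub_F m (3 * x - 2))
  have h4 : (6 : ℝ) / 2 ^ m = 3 * (2 / 2 ^ m) := by ring
  rw [abs_lt]; constructor <;> linarith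

theorem contDiff_F : ContDiff ℝ ∞ F := by
  rw [contDiff_infty]
  intro n
  induction n with
  | zero =>
    exact contDiff_zero.2 (continuous_iff_continuousAt.2 fun x => (hasDerivAt_F x).continuousAt)
  | succ n ih =>
    rw [Nat.cast_succ, contDiff_succ_iff_deriv]
    refine ⟨fun x => (hasDerivAt_F x).differentiableAt, by simp, ?_⟩
    have e : deriv F = fun x => 3 / 2 * (F (3 * x) - F (3 * x - 2)) :=
      funext fun x => (hasDerivAt_F x).deriv
    rw [e]
    exact contDiff_const.mul ((ih.comp (by fun_prop)).sub (ih.comp (by fun_prop)))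

theorem primrec_LG : Primrec LG := by
  have h3 : Primrec fun q : (ℕ × List (ℚ × ℚ)) × (ℚ × ℚ) => (3 : ℚ) ^ q.1.1 :=
    rat_pow.comp (Primrec.const 3) (Primrec.fst.comp Primrec.fst)
  have hc : Primrec fun q : (ℕ × List (ℚ × ℚ)) × (ℚ × ℚ) =>
      q.2.1 / (2 * 3 ^ q.1.1 * (q.1.1 + 2)) :=
    rat_div.comp (Primrec.fst.comp Primrec.snd) (rat_mul.comp (rat_mul.comp (Primrec.const 2) h3)
      (rat_add.comp (rat_natCast.comp (Primrec.fst.comp Primrec.fst)) (Primrec.const 2)))
  have hs : Primrec fun q : (ℕ × List (ℚ × ℚ)) × (ℚ × ℚ) => q.2.2 := Primrec.snd.comp Primrec.snd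
  have h : Primrec₂ fun (m : ℕ) (L : List (ℚ × ℚ)) => L.flatMap fun p =>
      [(p.1 / (2 * 3 ^ m * ((m : ℚ) + 2)), p.2), (-(p.1 / (2 * 3 ^ m * ((m : ℚ) + 2))), p.2 + 2 * 3 ^ m)] :=
    Primrec.list_flatMap Primrec.snd (Primrec.list_cons.comp (hc.pair hs)
      (Primrec.list_cons.comp ((rat_neg.comp hc).pair
        (rat_add.comp hs (rat_mul.comp (Primrec.const 2) h3))) (Primrec.const [])))
  exact Primrec.nat_rec₁ _ h

theorem primrec_GQ : Primrec₂ GQ := by
  have h : Primrec₂ fun (a : ℕ × ℚ) (p : ℚ × ℚ) =>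
      p.1 * (max (3 ^ a.1 * a.2 - p.2) 0) ^ (a.1 + 1) :=
    rat_mul.comp (Primrec.fst.comp Primrec.snd) (rat_pow.comp (rat_max.comp (rat_sub.comp
      (rat_mul.comp (rat_pow.comp (Primrec.const 3) (Primrec.fst.comp Primrec.fst))
        (Primrec.snd.comp Primrec.fst)) (Primrec.snd.comp Primrec.snd)) (Primrec.const 0))
      (Primrec.succ.comp (Primrec.fst.comp Primrec.fst)))
  exact rat_list_sum.comp (Primrec.list_map (primrec_LG.comp Primrec.fst) h)

theorem approx_F : Approx fun q : ℚ => F q := by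
  refine Approx.lim (v := fun p : ℚ × ℕ => (GQ (p.2 + 1) p.1 : ℝ))
    (Approx.rat (primrec_GQ.comp (Primrec.succ.comp Primrec.snd) Primrec.fst)) fun q k => ?_
  rw [← G_cast, abs_sub_comm]
  refine (G_sub_F _ _).trans ?_
  rw [pow_succ, div_le_div_iff₀ (by positivity) (by positivity)]
  have : ((k + 1 : ℕ) : ℝ) ≤ ((2 ^ k : ℕ) : ℝ) := by exact_mod_cast Nat.lt_two_pow_self
  push_cast at this
  linarith

/-- Coefficients and shifts of the derivatives of `F`. -/
def LF (m : ℕ) : List (ℚ × ℚ) :=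
  Nat.rec [(1, 0)] (fun m L => L.flatMap fun p =>
    [(p.1 * 3 ^ m * (3 / 2), 3 * p.2), (-(p.1 * 3 ^ m * (3 / 2)), 3 * p.2 + 2)]) m

theorem iteratedDeriv_F (m : ℕ) :
    iteratedDeriv m F = fun x => ((LF m).map fun p => (p.1 : ℝ) * F (3 ^ m * x - p.2)).sum := by
  induction m with
  | zero => funext x; simp [LF]
  | succ m ih =>
    funext x
    have e : LF (m + 1) = (LF m).flatMap fun p =>
      [(p.1 * 3 ^ m * (3 / 2), 3 * p.2), (-(p.1 * 3 ^ m * (3 / 2)), 3 * p.2 + 2)] := rfl
    rw [iteratedDeriv_succ, ih, e, list_sum_flatMap]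
    refine (hasDerivAt_list_sum _ _ _ x fun p => ?_).deriv
    have h1 : HasDerivAt (fun z : ℝ => 3 ^ m * z - p.2) (3 ^ m) x := by
      simpa using ((hasDerivAt_id x).const_mul ((3 : ℝ) ^ m)).sub_const (p.2 : ℝ)
    have h2 := ((hasDerivAt_F _).comp x h1).const_mul (p.1 : ℝ)
    refine h2.congr_deriv ?_
    have e1 : (3 : ℝ) ^ (m + 1) * x - 3 * p.2 = 3 * (3 ^ m * x - p.2) := by ring
    have e2 : (3 : ℝ) ^ (m + 1) * x - (3 * p.2 + 2) = 3 * (3 ^ m * x - p.2) - 2 := by ring
    simp only [List.map_cons, List.map_nil, List.sum_cons, List.sum_nil]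
    push_cast
    rw [e1, e2]
    ring

theorem primrec_LF : Primrec LF := by
  have hc : Primrec fun q : (ℕ × List (ℚ × ℚ)) × (ℚ × ℚ) => q.2.1 * 3 ^ q.1.1 * (3 / 2) :=
    rat_mul.comp (rat_mul.comp (Primrec.fst.comp Primrec.snd)
      (rat_pow.comp (Primrec.const 3) (Primrec.fst.comp Primrec.fst))) (Primrec.const _)
  have hs : Primrec fun q : (ℕ × List (ℚ × ℚ)) × (ℚ × ℚ) => 3 * q.2.2 :=
    rat_mul.comp (Primrec.const 3) (Primrec.snd.comp Primrec.snd)
  have h : Primrec₂ fun (m : ℕ) (L : List (ℚ × ℚ)) => L.flatMap fun p =>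
      [(p.1 * 3 ^ m * (3 / 2), 3 * p.2), (-(p.1 * 3 ^ m * (3 / 2)), 3 * p.2 + 2)] :=
    Primrec.list_flatMap Primrec.snd (Primrec.list_cons.comp (hc.pair hs)
      (Primrec.list_cons.comp ((rat_neg.comp hc).pair
        (rat_add.comp hs (Primrec.const 2))) (Primrec.const [])))
  exact Primrec.nat_rec₁ _ h

/-- Effective smooth functions of one variable. -/
structure Eff1 (f : ℝ → ℝ) : Prop where
  smooth : ContDiff ℝ ∞ f
  approx : Approx fun a : ℕ × ℚ => iteratedDeriv a.1 f a.2
  bound : ∃ b : ℕ → ℕ, Primrec b ∧ ∀ m x, |iteratedDeriv m f x| ≤ b m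

theorem eff1_F : Eff1 F := by
  refine ⟨contDiff_F, ?_, ?_⟩
  · have h1 : Approx fun a : (ℕ × ℚ) × (ℚ × ℚ) =>
        (a.2.1 : ℝ) * F ((3 ^ a.1.1 * a.1.2 - a.2.2 : ℚ) : ℝ) :=
      (Approx.rat (Primrec.fst.comp Primrec.snd)).mul (approx_F.comp (rat_sub.comp
        (rat_mul.comp (rat_pow.comp (Primrec.const 3) (Primrec.fst.comp Primrec.fst))
          (Primrec.snd.comp Primrec.fst)) (Primrec.snd.comp Primrec.snd)))
    refine (h1.list_sum (primrec_LF.comp Primrec.fst)).of_eq fun a => ?_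
    rw [iteratedDeriv_F]
    simp
  · have h1 : Primrec fun m => ((LF m).map fun p => |p.1|).sum :=
      rat_list_sum.comp (Primrec.list_map primrec_LF
        (rat_abs.comp (Primrec.fst.comp Primrec.snd)).to₂)
    obtain ⟨b, hb, hb'⟩ := (Approx.rat h1).bound
    refine ⟨b, hb, fun m x => le_trans ?_ ((le_abs_self _).trans (hb' m))⟩
    rw [iteratedDeriv_F]
    dsimp only
    generalize LF m = l
    induction l with
    | nil => simp
    | cons p l ih =>
      simp only [List.map_cons, List.sum_cons, Rat.cast_add, Rat.cast_abs]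
      refine (abs_add_le _ _).trans (add_le_add ?_ ih)
      rw [abs_mul, abs_of_nonneg (F_nonneg _)]
      exact mul_le_of_le_one_right (abs_nonneg _) (F_le_one _)

end Crest.Agent.R126
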