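import Mathlib
import Crest.Prelude.Def_BoxFlow
import Crest.Agent.R126.Fab

/-! Closure properties of effective functions and effective product fields. -/

set_option autoImplicit false
set_option linter.unusedVariables false

namespace Crest.Agent.R126

open Crest.Agent.Lib.Comp Filter Topology Crest.AnalysisR.BoxFlow
open scoped ContDiff

theorem Eff1.contDiff {f : ℝ → ℝ} (h : Eff1 f) (n : ℕ) : ContDiff ℝ n f :=
  h.smooth.of_le (by exact_mod_cast le_top)

theorem Eff1.add {f g : ℝ → ℝ} (hf : Eff1 f) (hg : Eff1 g) : Eff1 fun x => f x + g x := by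
  have e : ∀ m x, iteratedDeriv m (fun x => f x + g x) x =
      iteratedDeriv m f x + iteratedDeriv m g x := fun m x =>
    iteratedDeriv_add (hf.contDiff m).contDiffAt (hg.contDiff m).contDiffAt
  refine ⟨hf.smooth.add hg.smooth, (hf.approx.add hg.approx).of_eq fun a => (e _ _).symm, ?_⟩
  obtain ⟨b, hb, h1⟩ := hf.bound
  obtain ⟨b', hb', h2⟩ := hg.bound
  refine ⟨fun m => b m + b' m, Primrec.nat_add.comp hb hb', fun m x => ?_⟩
  rw [e, Nat.cast_add]
  exact (abs_add_le _ _).trans (add_le_add (h1 m x) (h2 m x))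

theorem Eff1.const_mul {f : ℝ → ℝ} (hf : Eff1 f) (c : ℚ) : Eff1 fun x => c * f x := by
  have e : ∀ m x, iteratedDeriv m (fun x => c * f x) x = c * iteratedDeriv m f x := fun m x =>
    iteratedDeriv_const_mul _ (hf.contDiff m).contDiffAt
  refine ⟨contDiff_const.mul hf.smooth,
    ((Approx.rat (Primrec.const c)).mul hf.approx).of_eq fun a => (e _ _).symm, ?_⟩
  obtain ⟨b, hb, h1⟩ := hf.bound
  refine ⟨fun m => c.num.natAbs * b m, Primrec.nat_mul.comp (Primrec.const _) hb, fun m x => ?_⟩
  rw [e, Nat.cast_mul, abs_mul]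
  exact mul_le_mul (abs_le_natAbs_num c) (h1 m x) (abs_nonneg _) (Nat.cast_nonneg _)

theorem Eff1.sub {f g : ℝ → ℝ} (hf : Eff1 f) (hg : Eff1 g) : Eff1 fun x => f x - g x := by
  have := hf.add (hg.const_mul (-1))
  simpa [sub_eq_add_neg] using this

theorem Eff1.affine {f : ℝ → ℝ} (hf : Eff1 f) (α β : ℚ) : Eff1 fun x => f (α * x + β) := by
  have e : ∀ m x, iteratedDeriv m (fun x => f (α * x + β)) x =
      (α : ℝ) ^ m * iteratedDeriv m f (α * x + β) := by
    intro m x
    have h1 := iteratedDeriv_comp_const_mul (n := m) (f := fun z => f (z + β))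
      ((hf.contDiff m).comp (by fun_prop)) (α : ℝ)
    rw [h1, iteratedDeriv_comp_add_const]
  refine ⟨hf.smooth.comp (by fun_prop), ?_, ?_⟩
  · have h1 : Primrec fun a : ℕ × ℚ => (a.1, α * a.2 + β) :=
      Primrec.fst.pair (rat_add.comp (rat_mul.comp (Primrec.const α) Primrec.snd) (Primrec.const β))
    refine ((Approx.rat (rat_pow.comp (Primrec.const α) Primrec.fst)).mul
      (hf.approx.comp h1)).of_eq fun a => ?_
    rw [e]; simp
  obtain ⟨b, hb, h1⟩ := hf.bound
  refine ⟨fun m => α.num.natAbs ^ m * b m,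
    Primrec.nat_mul.comp (nat_pow'.comp (Primrec.const _) Primrec.id) hb, fun m x => ?_⟩
  rw [e, Nat.cast_mul, abs_mul, abs_pow, Nat.cast_pow]
  exact mul_le_mul (pow_le_pow_left₀ (abs_nonneg _) (abs_le_natAbs_num α) m) (h1 m _)
    (abs_nonneg _) (by positivity)

theorem Eff1.deriv {f : ℝ → ℝ} (hf : Eff1 f) : Eff1 (deriv f) := by
  refine ⟨(contDiff_infty_iff_deriv.1 hf.smooth).2, ?_, ?_⟩
  · refine (hf.approx.comp ((Primrec.succ.comp Primrec.fst).pair Primrec.snd)).of_eq fun a => ?_
    simp only [Nat.succ_eq_add_one, iteratedDeriv_succ']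
  · obtain ⟨b, hb, h1⟩ := hf.bound
    refine ⟨fun m => b (m + 1), hb.comp Primrec.succ, fun m x => ?_⟩
    rw [← iteratedDeriv_succ']; exact h1 _ _

theorem hasCompactSupport_iteratedDeriv {f : ℝ → ℝ} (m : ℕ) (x : ℝ) (hx : x ∉ tsupport f) :
    iteratedDeriv m f x = 0 := by
  have := (notMem_tsupport_iff_eventuallyEq.1 hx).iteratedDeriv_eq m
  rw [this]
  exact iteratedDeriv_const_zero

theorem Eff1.mul_id {f : ℝ → ℝ} (hf : Eff1 f) (hs : HasCompactSupport f) :
    Eff1 fun x => x * f x := by
  have e : ∀ m, iteratedDeriv m (fun x => x * f x) =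
      fun x => x * iteratedDeriv m f x + m * iteratedDeriv (m - 1) f x := by
    intro m
    induction m with
    | zero => funext x; simp
    | succ m ih =>
      funext x
      have hd : ∀ k, HasDerivAt (iteratedDeriv k f) (iteratedDeriv (k + 1) f x) x := by
        intro k
        rw [iteratedDeriv_succ]
        exact ((hf.contDiff (k + 1)).differentiable_iteratedDeriv k
          (by exact_mod_cast Nat.lt_succ_self k) x).hasDerivAt
      rw [iteratedDeriv_succ, ih]
      have h1 := ((hasDerivAt_id x).mul (hd m)).add ((hd (m - 1)).const_mul (m : ℝ))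
      refine h1.deriv.trans ?_
      cases m with
      | zero => simp; ring
      | succ m => simp; ring
  refine ⟨contDiff_id.mul hf.smooth, ?_, ?_⟩
  · refine (((Approx.rat Primrec.snd).mul hf.approx).add ((Approx.nat Primrec.fst).mul
      (hf.approx.comp ((Primrec.pred.comp Primrec.fst).pair Primrec.snd)))).of_eq fun a => ?_
    rw [e]; rfl
  · obtain ⟨b, hb, h1⟩ := hf.bound
    obtain ⟨R, hR⟩ := hs.isCompact.isBounded.exists_norm_le
    obtain ⟨N, hN⟩ := exists_nat_ge R
    refine ⟨fun m => N * b m + m * b (m - 1), Primrec.nat_add.comp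
      (Primrec.nat_mul.comp (Primrec.const _) hb)
      (Primrec.nat_mul.comp Primrec.id (hb.comp Primrec.pred)), fun m x => ?_⟩
    rw [e]
    push_cast
    refine (abs_add_le _ _).trans (add_le_add ?_ ?_)
    · by_cases hx : x ∈ tsupport f
      · rw [abs_mul]
        exact mul_le_mul ((hR x hx).trans hN) (h1 m x) (abs_nonneg _) (Nat.cast_nonneg _)
      · rw [hasCompactSupport_iteratedDeriv m x hx]; simp only [mul_zero, abs_zero]; positivity
    · rw [abs_mul, Nat.abs_cast]
      exact mul_le_mul_of_nonneg_left (h1 _ x) (Nat.cast_nonneg _)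

/-- The space-time coordinates. -/
noncomputable def crd (d : Fin 4) : (ℝ × (Fin 3 → ℝ)) →L[ℝ] ℝ :=
  Fin.cases (ContinuousLinearMap.fst ℝ ℝ (Fin 3 → ℝ))
    (fun j => (ContinuousLinearMap.proj j).comp (ContinuousLinearMap.snd ℝ ℝ (Fin 3 → ℝ))) d

@[simp] theorem crd_zero (p : ℝ × (Fin 3 → ℝ)) : crd 0 p = p.1 := rfl

@[simp] theorem crd_succ (j : Fin 3) (p : ℝ × (Fin 3 → ℝ)) : crd j.succ p = p.2 j := rfl

theorem direction_succ (j : Fin 3) : direction j.succ = (0, Pi.single j 1) := by
  simp [direction]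

theorem crd_direction (d d' : Fin 4) : crd d (direction d') = if d = d' then 1 else 0 := by
  induction d using Fin.cases with
  | zero =>
    induction d' using Fin.cases with
    | zero => simp [direction]
    | succ j => rw [direction_succ, if_neg (Fin.succ_ne_zero j).symm]; simp
  | succ i =>
    induction d' using Fin.cases with
    | zero => simp [direction]
    | succ j => rw [direction_succ]; simp [Pi.single_apply]

/-- A product of functions of the coordinates. -/
noncomputable def prodF (f : Fin 4 → ℝ → ℝ) (p : ℝ × (Fin 3 → ℝ)) : ℝ := ∏ d, f d (crd d p)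

/-- A product field. -/
noncomputable def term (c : ℚ) (f : Fin 4 → ℝ → ℝ) (j : Fin 3) : Field :=
  fun p => ((c : ℝ) * prodF f p) • (Pi.single j 1 : Fin 3 → ℝ)

/-- Differentiate the `d`-th factor. -/
noncomputable def dF (d : Fin 4) (f : Fin 4 → ℝ → ℝ) : Fin 4 → ℝ → ℝ :=
  Function.update f d (deriv (f d))

theorem contDiff_prodF {f : Fin 4 → ℝ → ℝ} (hf : ∀ d, ContDiff ℝ ∞ (f d)) :
    ContDiff ℝ ∞ (prodF f) :=
  contDiff_prod fun d _ => (hf d).comp (crd d).contDiff

theorem contDiff_term {f : Fin 4 → ℝ → ℝ} (hf : ∀ d, ContDiff ℝ ∞ (f d)) (c : ℚ) (j : Fin 3) :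
    ContDiff ℝ ∞ (term c f j) :=
  (contDiff_const.mul (contDiff_prodF hf)).smul contDiff_const

theorem fderiv_term {f : Fin 4 → ℝ → ℝ} (hf : ∀ d, ContDiff ℝ ∞ (f d)) (c : ℚ) (j : Fin 3)
    (p : ℝ × (Fin 3 → ℝ)) (d : Fin 4) :
    fderiv ℝ (term c f j) p (direction d) = term c (dF d f) j p := by
  have h1 : ∀ i ∈ (Finset.univ : Finset (Fin 4)), HasFDerivAt (fun p => f i (crd i p))
      (deriv (f i) (crd i p) • crd i) p := by
    intro i _
    have h2 : HasDerivAt (f i) (deriv (f i) (crd i p)) (crd i p) :=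
      ((hf i).differentiable (by simp) _).hasDerivAt
    exact h2.comp_hasFDerivAt p (crd i).hasFDerivAt
  have h2 := ((HasFDerivAt.finsetProd h1).const_mul (c : ℝ)).smul_const
    (Pi.single j 1 : Fin 3 → ℝ)
  have h3 := h2.fderiv
  change fderiv ℝ (term c f j) p = _ at h3
  rw [h3]
  simp only [ContinuousLinearMap.smulRight_apply, smul_apply,
    sum_apply, crd_direction, smul_eq_mul, mul_ite, mul_one, mul_zero,
    Finset.sum_ite_eq', Finset.mem_univ, if_true, term, prodF]
  congr 2
  rw [← Finset.prod_erase_mul _ _ (Finset.mem_univ d)]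
  congr 1
  · refine Finset.prod_congr rfl fun i hi => ?_
    rw [dF, Function.update_of_ne (Finset.ne_of_mem_erase hi)]
  · simp [dF]

theorem mixedDeriv_term {f : Fin 4 → ℝ → ℝ} (hf : ∀ d, ContDiff ℝ ∞ (f d)) (c : ℚ) (j : Fin 3)
    (ds : List (Fin 4)) :
    mixedDeriv ds (term c f j) = term c (fun d => iteratedDeriv (ds.count d) (f d)) j := by
  induction ds with
  | nil => simp [mixedDeriv]
  | cons d ds ih =>
    funext p
    rw [mixedDeriv, ih]
    dsimp only
    rw [fderiv_term]
    · congr 1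
      funext i
      by_cases h : i = d
      · subst h; simp [dF, iteratedDeriv_succ]
      · rw [dF, Function.update_of_ne h, List.count_cons_of_ne (Ne.symm h)]
    · intro i
      rw [iteratedDeriv_eq_iterate]
      exact (hf i).iterate_deriv _

theorem contDiff_mixedDeriv {U : Field} (hU : ContDiff ℝ ∞ U) (ds : List (Fin 4)) :
    ContDiff ℝ ∞ (mixedDeriv ds U) := by
  induction ds with
  | nil => exact hU
  | cons d ds ih => exact (ih.fderiv_right (m := ∞) le_rfl).clm_apply contDiff_const

theorem mixedDeriv_add {U V : Field} (hU : ContDiff ℝ ∞ U) (hV : ContDiff ℝ ∞ V)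
    (ds : List (Fin 4)) : mixedDeriv ds (U + V) = mixedDeriv ds U + mixedDeriv ds V := by
  induction ds with
  | nil => rfl
  | cons d ds ih =>
    funext p
    simp only [mixedDeriv, ih, Pi.add_apply]
    rw [fderiv_add ((contDiff_mixedDeriv hU ds).differentiable (by simp) p)
      ((contDiff_mixedDeriv hV ds).differentiable (by simp) p)]
    rfl

/-- Smooth, compactly supported, effective fields. -/
structure Good (U : Field) : Prop where
  smooth : ContDiff ℝ ∞ U
  supp : HasCompactSupport U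
  approx : ∀ j, Approx fun a : List (Fin 4) × (ℚ × (Fin 3 → ℚ)) =>
    mixedDeriv a.1 U ((a.2.1 : ℝ), ratPoint a.2.2) j
  bound : ∃ b : List (Fin 4) → ℕ, Primrec b ∧ ∀ ds p j, |mixedDeriv ds U p j| ≤ b ds

theorem Good.effective {U : Field} (h : Good U) : Effective U := by
  choose E hE hE' using h.approx
  obtain ⟨b, hb, hb'⟩ := h.bound
  refine ⟨fun a j => E j ((a.1, a.2.1), a.2.2), b, Primrec.to_comp ?_, hb.to_comp,
    fun ds t q n j => hE' j (ds, (t, q)) n, hb'⟩
  rw [Primrec.fin_curry]
  refine Primrec₂.swap (f := fun (j : Fin 3) (a : List (Fin 4) × (ℚ × (Fin 3 → ℚ)) × ℕ) =>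
    E j ((a.1, a.2.1), a.2.2)) (Primrec.fin_curry₁.2 fun j => ?_)
  exact (hE j).comp ((Primrec.fst.pair (Primrec.fst.comp Primrec.snd)).pair
    (Primrec.snd.comp Primrec.snd))

theorem Good.add {U V : Field} (hU : Good U) (hV : Good V) : Good (U + V) := by
  refine ⟨hU.smooth.add hV.smooth, hU.supp.add hV.supp, fun j => ?_, ?_⟩
  · refine ((hU.approx j).add (hV.approx j)).of_eq fun a => ?_
    rw [mixedDeriv_add hU.smooth hV.smooth]; rfl
  · obtain ⟨b, hb, h1⟩ := hU.bound
    obtain ⟨b', hb', h2⟩ := hV.bound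
    refine ⟨fun m => b m + b' m, Primrec.nat_add.comp hb hb', fun ds p j => ?_⟩
    rw [mixedDeriv_add hU.smooth hV.smooth, Nat.cast_add]
    exact (abs_add_le _ _).trans (add_le_add (h1 ds p j) (h2 ds p j))

theorem primrec_list_count (d : Fin 4) : Primrec fun ds : List (Fin 4) => ds.count d := by
  have h : PrimrecPred fun x : Fin 4 => x = d := Primrec.eq.comp Primrec.id (Primrec.const d)
  refine (Primrec.list_length.comp (Primrec.listFilter h)).of_eq fun ds => ?_
  rw [List.count_eq_countP, List.countP_eq_length_filter]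
  rfl

theorem hasCompactSupport_term {f : Fin 4 → ℝ → ℝ} (hs : ∀ d, HasCompactSupport (f d)) (c : ℚ)
    (j : Fin 3) : HasCompactSupport (term c f j) := by
  refine HasCompactSupport.intro ((hs 0).isCompact.prod
    (isCompact_univ_pi fun i : Fin 3 => (hs i.succ).isCompact)) fun p hp => ?_
  have : ∃ d, crd d p ∉ tsupport (f d) := by
    by_contra hc
    push Not at hc
    exact hp ⟨hc 0, fun i _ => hc i.succ⟩
  obtain ⟨d, hd⟩ := this
  have h0 : prodF f p = 0 :=
    Finset.prod_eq_zero (Finset.mem_univ d) (image_eq_zero_of_notMem_tsupport hd)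
  simp [term, h0]

theorem good_term {f : Fin 4 → ℝ → ℝ} (hf : ∀ d, Eff1 (f d)) (hs : ∀ d, HasCompactSupport (f d))
    (c : ℚ) (j : Fin 3) : Good (term c f j) := by
  have hsm : ∀ d, ContDiff ℝ ∞ (f d) := fun d => (hf d).smooth
  refine ⟨contDiff_term hsm c j, hasCompactSupport_term hs c j, fun i => ?_, ?_⟩
  · have h0 : Approx fun a : List (Fin 4) × (ℚ × (Fin 3 → ℚ)) =>
        iteratedDeriv (a.1.count 0) (f 0) a.2.1 :=
      (hf 0).approx.comp (((primrec_list_count 0).comp Primrec.fst).pair
        (Primrec.fst.comp Primrec.snd))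
    have h1 : ∀ k : Fin 3, Approx fun a : List (Fin 4) × (ℚ × (Fin 3 → ℚ)) =>
        iteratedDeriv (a.1.count k.succ) (f k.succ) (a.2.2 k) := fun k =>
      (hf k.succ).approx.comp (((primrec_list_count k.succ).comp Primrec.fst).pair
        (Primrec.fin_app.comp (Primrec.snd.comp Primrec.snd) (Primrec.const k)))
    refine (((Approx.rat (Primrec.const c)).mul
      (h0.mul (((h1 0).mul (h1 1)).mul (h1 2)))).mul
      (Approx.rat (Primrec.const (if i = j then 1 else 0)))).of_eq fun a => ?_
    rw [mixedDeriv_term hsm]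
    simp only [term, prodF, Fin.prod_univ_succ (n := 3), Fin.prod_univ_three, crd_zero, crd_succ,
      ratPoint, Pi.smul_apply, smul_eq_mul, Pi.single_apply]
    split_ifs <;> simp
  · choose b hb hb' using fun d => (hf d).bound
    have h1 : ∀ d, Primrec fun ds : List (Fin 4) => b d (ds.count d) := fun d =>
      (hb d).comp (primrec_list_count d)
    refine ⟨fun ds => c.num.natAbs * (b 0 (ds.count 0) * b 1 (ds.count 1) * b 2 (ds.count 2) *
      b 3 (ds.count 3)), Primrec.nat_mul.comp (Primrec.const _) (Primrec.nat_mul.comp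
      (Primrec.nat_mul.comp (Primrec.nat_mul.comp (h1 0) (h1 1)) (h1 2)) (h1 3)), fun ds p i => ?_⟩
    rw [mixedDeriv_term hsm]
    have h2 : |prodF (fun d => iteratedDeriv (ds.count d) (f d)) p| ≤ ∏ d, (b d (ds.count d) : ℝ) := by
      rw [prodF, Finset.abs_prod]
      exact Finset.prod_le_prod (fun _ _ => abs_nonneg _) fun d _ => hb' d _ _
    rw [Fin.prod_univ_four] at h2
    have h3 := mul_le_mul (abs_le_natAbs_num c) h2 (abs_nonneg _) (Nat.cast_nonneg _)
    simp only [term, Pi.smul_apply, smul_eq_mul, Pi.single_apply, Nat.cast_mul]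
    split_ifs
    · rwa [mul_one, abs_mul]
    · simp only [mul_zero, abs_zero]; positivity

theorem good_zero : Good 0 := by
  have e : ∀ ds, mixedDeriv ds (0 : Field) = 0 := by
    intro ds
    induction ds with
    | nil => rfl
    | cons d ds ih => funext p; simp [mixedDeriv, ih]
  refine ⟨contDiff_const, HasCompactSupport.zero, fun j => ?_, fun _ => 0, Primrec.const 0,
    fun ds p j => by simp [e]⟩
  exact (Approx.rat (Primrec.const 0)).of_eq fun a => by simp [e]

theorem spaceDiv_add {U V : Field} (hU : ContDiff ℝ ∞ U) (hV : ContDiff ℝ ∞ V)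
    (p : ℝ × (Fin 3 → ℝ)) : spaceDiv (U + V) p = spaceDiv U p + spaceDiv V p := by
  simp only [spaceDiv, ← Finset.sum_add_distrib]
  rw [fderiv_add (hU.differentiable (by simp) p) (hV.differentiable (by simp) p)]
  rfl

theorem spaceDiv_term {f : Fin 4 → ℝ → ℝ} (hf : ∀ d, ContDiff ℝ ∞ (f d)) (c : ℚ) (j : Fin 3)
    (p : ℝ × (Fin 3 → ℝ)) : spaceDiv (term c f j) p = c * prodF (dF j.succ f) p := by
  simp only [spaceDiv, ← direction_succ, fderiv_term hf]
  simp [term, Pi.single_apply]

end Crest.Agent.R126
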