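import Mathlib
import Crest.Agent.R126.Eff

/-! Cut-off shear fields and the reachability relation. -/

set_option autoImplicit false
set_option linter.unusedVariables false

namespace Crest.Agent.R126

open Crest.Agent.Lib.Comp Filter Topology Crest.AnalysisR.BoxFlow
open scoped ContDiff

/-- A plateau function: `1` on `[lo, hi]`, `0` outside `(lo - δ, hi + δ)`. -/
noncomputable def bump (lo hi δ : ℚ) (x : ℝ) : ℝ :=
  F ((δ⁻¹ : ℚ) * x + (1 - lo / δ : ℚ)) - F ((δ⁻¹ : ℚ) * x + (-hi / δ : ℚ))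

theorem eff1_bump (lo hi δ : ℚ) : Eff1 (bump lo hi δ) :=
  (eff1_F.affine _ _).sub (eff1_F.affine _ _)

theorem bump_eq (lo hi δ : ℚ) (hδ : 0 < δ) (x : ℝ) :
    bump lo hi δ x = F ((x - lo + δ) / δ) - F ((x - hi) / δ) := by
  have : (δ : ℝ) ≠ 0 := by exact_mod_cast hδ.ne'
  unfold bump
  congr 2 <;> push_cast <;> field_simp <;> ring

theorem bump_one {lo hi δ : ℚ} (hδ : 0 < δ) {x : ℝ} (h1 : lo ≤ x) (h2 : x ≤ hi) :
    bump lo hi δ x = 1 := by
  have hδ' : (0 : ℝ) < δ := by exact_mod_cast hδ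
  rw [bump_eq _ _ _ hδ, F_of_one_le, F_of_nonpos, sub_zero]
  · exact div_nonpos_of_nonpos_of_nonneg (by linarith) hδ'.le
  · rw [one_le_div hδ']; linarith

theorem bump_zero {lo hi δ : ℚ} (hδ : 0 < δ) (hlh : lo ≤ hi) {x : ℝ}
    (h : x ≤ lo - δ ∨ hi + δ ≤ x) : bump lo hi δ x = 0 := by
  have hδ' : (0 : ℝ) < δ := by exact_mod_cast hδ
  have hlh' : (lo : ℝ) ≤ hi := by exact_mod_cast hlh
  rw [bump_eq _ _ _ hδ]
  rcases h with h | h
  · rw [F_of_nonpos, F_of_nonpos, sub_zero] <;>
      exact div_nonpos_of_nonpos_of_nonneg (by linarith) hδ'.le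
  · rw [F_of_one_le, F_of_one_le, sub_self] <;> rw [one_le_div hδ'] <;> linarith

theorem hasCompactSupport_bump {lo hi δ : ℚ} (hδ : 0 < δ) (hlh : lo ≤ hi) :
    HasCompactSupport (bump lo hi δ) := by
  refine HasCompactSupport.intro (isCompact_Icc (a := (lo : ℝ) - δ) (b := hi + δ)) fun x hx => ?_
  refine bump_zero hδ hlh ?_
  by_contra hc
  push Not at hc
  exact hx ⟨hc.1.le, hc.2.le⟩

/-- Three-space. -/
abbrev V3 : Type := Fin 3 → ℝ

theorem exists_step (j k : Fin 3) (hjk : j ≠ k) (α β : ℚ) (lo hi : Fin 3 → ℚ)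
    (hlh : ∀ d, lo d ≤ hi d) (δ : ℚ) (hδ : 0 < δ) (θ : ℝ → ℝ) (hθ : Eff1 θ)
    (hθs : HasCompactSupport θ) : ∃ U : Field, Good U ∧ (∀ p, spaceDiv U p = 0) ∧
      (∀ t (x : V3), (∀ d, lo d < x d ∧ x d < hi d) →
        U (t, x) = (θ t * (α * x k + β)) • (Pi.single j 1 : V3)) ∧
      (∀ t (x : V3), (∃ d, x d < lo d - δ ∨ hi d + δ < x d) → U (t, x) = 0) ∧
      (∀ t x, θ t = 0 → U (t, x) = 0) := by
  set χ : Fin 3 → ℝ → ℝ := fun d => bump (lo d) (hi d) δ with hχ
  have hχe : ∀ d, Eff1 (χ d) := fun d => eff1_bump _ _ _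
  have hχs : ∀ d, HasCompactSupport (χ d) := fun d => hasCompactSupport_bump hδ (hlh d)
  set γ : ℝ → ℝ := fun z => (α / 2 : ℚ) * (z * (z * χ k z)) + β * (z * χ k z) with hγ
  have h1s : HasCompactSupport fun z => z * χ k z := (hχs k).mul_left
  have hγe : Eff1 γ := ((((hχe k).mul_id (hχs k)).mul_id h1s).const_mul _).add
    (((hχe k).mul_id (hχs k)).const_mul _)
  have hγs : HasCompactSupport γ := (h1s.mul_left.mul_left).add h1s.mul_left
  set g : Fin 3 → ℝ → ℝ := Function.update χ k γ with hg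
  set f : Fin 4 → ℝ → ℝ := Fin.cons θ g with hf
  have hfe : ∀ d, Eff1 (f d) ∧ HasCompactSupport (f d) := by
    intro d
    induction d using Fin.cases with
    | zero => exact ⟨hθ, hθs⟩
    | succ i =>
      by_cases h : i = k
      · subst h; simp only [hf, hg, Fin.cons_succ, Function.update_self]; exact ⟨hγe, hγs⟩
      · simp only [hf, hg, Fin.cons_succ, Function.update_of_ne h]; exact ⟨hχe i, hχs i⟩
  have hdF : ∀ d' d, Eff1 (dF d' f d) ∧ HasCompactSupport (dF d' f d) := by
    intro d' d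
    by_cases h : d = d'
    · subst h; simp only [dF, Function.update_self]; exact ⟨(hfe d).1.deriv, (hfe d).2.deriv⟩
    · simp only [dF, Function.update_of_ne h]; exact hfe d
  have hA := good_term (fun d => (hdF k.succ d).1) (fun d => (hdF k.succ d).2) 1 j
  have hB := good_term (fun d => (hdF j.succ d).1) (fun d => (hdF j.succ d).2) (-1) k
  have hjk' : j.succ ≠ k.succ := fun h => hjk (Fin.succ_injective _ h)
  have hzero : ∀ (d' d : Fin 4) (p : ℝ × V3), dF d' f d (crd d p) = 0 → prodF (dF d' f) p = 0 :=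
    fun d' d p h => Finset.prod_eq_zero (Finset.mem_univ d) h
  refine ⟨_, hA.add hB, fun p => ?_, fun t x hx => ?_, fun t x hx => ?_, fun t x ht => ?_⟩
  · rw [spaceDiv_add hA.smooth hB.smooth, spaceDiv_term fun d => (hdF _ d).1.smooth,
      spaceDiv_term fun d => (hdF _ d).1.smooth]
    have e : dF j.succ (dF k.succ f) = dF k.succ (dF j.succ f) := by
      simp only [dF, Function.update_of_ne hjk', Function.update_of_ne hjk'.symm]
      exact Function.update_comm hjk'.symm _ _ _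
    rw [e]; simp
  · have hev : ∀ d, χ d =ᶠ[𝓝 (x d)] fun _ => 1 := by
      intro d
      filter_upwards [Ioo_mem_nhds (hx d).1 (hx d).2] with z hz
      exact bump_one hδ hz.1.le hz.2.le
    have h2 : prodF (dF j.succ f) (t, x) = 0 := by
      refine hzero _ j.succ _ ?_
      simp only [dF, Function.update_self, hf, hg, Fin.cons_succ, Function.update_of_ne hjk,
        crd_succ]
      rw [(hev j).deriv_eq]; simp
    have h3 : deriv γ (x k) = α * x k + β := by
      have e : γ =ᶠ[𝓝 (x k)] fun z => (α / 2 : ℚ) * (z * z) + β * z := by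
        filter_upwards [hev k] with z hz
        simp [hγ, hz]
      rw [e.deriv_eq]
      have := ((((hasDerivAt_id (x k)).mul (hasDerivAt_id (x k))).const_mul ((α / 2 : ℚ) : ℝ)).add
        ((hasDerivAt_id (x k)).const_mul (β : ℝ))).deriv
      refine this.trans ?_
      simp; ring
    have h4 : prodF (dF k.succ f) (t, x) = θ t * (α * x k + β) := by
      rw [prodF, Fin.prod_univ_succ, Finset.prod_eq_single k]
      · simp only [dF, Function.update_self, hf, hg, Fin.cons_succ, crd_succ, h3,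
          Function.update_of_ne (Fin.succ_ne_zero k).symm, Fin.cons_zero, crd_zero]
      · intro i _ hi
        have hi' : i.succ ≠ k.succ := fun h => hi (Fin.succ_injective _ h)
        simp only [dF, Function.update_of_ne hi', hf, hg, Fin.cons_succ, crd_succ,
          Function.update_of_ne hi]
        exact (hev i).eq_of_nhds
      · simp
    simp [term, h2, h4]
  · obtain ⟨d, hd⟩ := hx
    have hev : χ d =ᶠ[𝓝 (x d)] fun _ => 0 := by
      rcases hd with hd | hd
      · filter_upwards [gt_mem_nhds hd] with z hz using bump_zero hδ (hlh d) (Or.inl hz.le)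
      · filter_upwards [lt_mem_nhds hd] with z hz using bump_zero hδ (hlh d) (Or.inr hz.le)
    have hev2 : f d.succ =ᶠ[𝓝 (x d)] fun _ => 0 := by
      by_cases h : d = k
      · subst h
        simp only [hf, hg, Fin.cons_succ, Function.update_self]
        filter_upwards [hev] with z hz
        simp [hγ, hz]
      · simpa only [hf, hg, Fin.cons_succ, Function.update_of_ne h] using hev
    have h2 : ∀ d', prodF (dF d' f) (t, x) = 0 := by
      intro d'
      refine hzero _ d.succ _ ?_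
      by_cases h : d.succ = d'
      · subst h
        simp only [dF, Function.update_self, crd_succ]
        rw [hev2.deriv_eq]; simp
      · simp only [dF, Function.update_of_ne h, crd_succ]
        exact hev2.eq_of_nhds
    simp [term, h2]
  · have h2 : ∀ d' : Fin 3, prodF (dF d'.succ f) (t, x) = 0 := by
      intro d'
      refine hzero _ 0 _ ?_
      simp only [dF, Function.update_of_ne (Fin.succ_ne_zero d').symm, hf, Fin.cons_zero, crd_zero,
        ht]
    simp [term, h2]

variable {ι : Type}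

/-- The maps `g i` are realised near the sets `K i` by a good field active in `(s, e)`. -/
def Realised (s e : ℚ) (K : ι → Set V3) (g : ι → V3 → V3) : Prop :=
  ∃ U : Field, Good U ∧ (∀ p, spaceDiv U p = 0) ∧ (∀ p, p.1 ∉ Set.Ioo (s : ℝ) e → U p = 0) ∧
    ∀ i, ∃ O : Set V3, IsOpen O ∧ K i ⊆ O ∧ ∀ x ∈ O, ∃ γ : ℝ → V3,
      (∀ t, HasDerivAt γ (U (t, γ t)) t) ∧ (∀ t, t ≤ (s : ℝ) → γ t = x) ∧
        (∀ t, (e : ℝ) ≤ t → γ t = g i x)

/-- Realised in every time window. -/
def Reach (K : ι → Set V3) (g : ι → V3 → V3) : Prop := ∀ s e : ℚ, s < e → Realised s e K g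

theorem Reach.refl (K : ι → Set V3) : Reach K fun _ => id := by
  intro s e _
  refine ⟨0, good_zero, fun p => by simp [spaceDiv], fun _ _ => rfl, fun i =>
    ⟨Set.univ, isOpen_univ, Set.subset_univ _, fun x _ => ⟨fun _ => x, fun t => ?_,
      fun _ _ => rfl, fun _ _ => rfl⟩⟩⟩
  exact hasDerivAt_const t x

theorem Reach.trans {K K' : ι → Set V3} {g g' : ι → V3 → V3} (h : Reach K g) (h' : Reach K' g')
    (hc : ∀ i, Continuous (g i)) (hm : ∀ i, Set.MapsTo (g i) (K i) (K' i)) :
    Reach K fun i => g' i ∘ g i := by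
  intro s e hse
  obtain ⟨U, hU, hUd, hUt, hUO⟩ := h s ((s + e) / 2) (by linarith)
  obtain ⟨W, hW, hWd, hWt, hWO⟩ := h' ((s + e) / 2) e (by linarith)
  have hse' : (s : ℝ) < e := by exact_mod_cast hse
  set m : ℝ := (((s + e) / 2 : ℚ) : ℝ) with hm'
  have hsm : (s : ℝ) < m := by rw [hm']; push_cast; linarith
  have hme : m < e := by rw [hm']; push_cast; linarith
  refine ⟨U + W, hU.add hW, fun p => by rw [spaceDiv_add hU.smooth hW.smooth, hUd, hWd, add_zero],
    fun p hp => ?_, fun i => ?_⟩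
  · rw [Pi.add_apply, hUt p fun hh => hp ⟨hh.1, hh.2.trans hme⟩,
      hWt p fun hh => hp ⟨hsm.trans hh.1, hh.2⟩, add_zero]
  obtain ⟨O, hO, hKO, hγ⟩ := hUO i
  obtain ⟨O', hO', hKO', hγ'⟩ := hWO i
  refine ⟨O ∩ g i ⁻¹' O', hO.inter (hO'.preimage (hc i)), fun x hx => ⟨hKO hx, hKO' (hm i hx)⟩,
    fun x hx => ?_⟩
  obtain ⟨γ, h1, h2, h3⟩ := hγ x hx.1
  obtain ⟨γ', h1', h2', h3'⟩ := hγ' (g i x) hx.2
  refine ⟨fun t => γ t + γ' t - g i x, fun t => ?_, fun t ht => ?_, fun t ht => ?_⟩
  · refine (((h1 t).add (h1' t)).sub_const (g i x)).congr_deriv ?_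
    dsimp only
    rcases le_total t m with ht | ht
    · rw [Pi.add_apply, h2' t ht, add_sub_cancel_right, hWt (t, _) fun hh => not_lt.2 ht hh.1,
        hWt (t, _) fun hh => not_lt.2 ht hh.1]
    · rw [Pi.add_apply, h3 t ht, add_sub_cancel_left, hUt (t, _) fun hh => not_lt.2 ht hh.2,
        hUt (t, _) fun hh => not_lt.2 ht hh.2]
  · simp only [h2 t ht, h2' t (ht.trans hsm.le), add_sub_cancel_right]
  · simp only [h3 t (hme.le.trans ht), h3' t ht, add_sub_cancel_left, Function.comp]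

/-- An affine shear. -/
def sh (j k : Fin 3) (α β : ℚ) (x : V3) : V3 := x + ((α : ℝ) * x k + β) • (Pi.single j 1 : V3)

theorem continuous_sh (j k : Fin 3) (α β : ℚ) : Continuous (sh j k α β) := by
  unfold sh; fun_prop

theorem Reach.step0 [DecidableEq ι] (K : ι → Set V3) (i0 : ι) (j k : Fin 3) (hjk : j ≠ k)
    (α β : ℚ) (lo hi : Fin 3 → ℚ) (hlh : ∀ d, lo d ≤ hi d) (δ : ℚ) (hδ : 0 < δ)
    (hK : ∀ x ∈ K i0, (∀ d, lo d < x d ∧ x d < hi d) ∧
      ∀ d, lo d < sh j k α β x d ∧ sh j k α β x d < hi d)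
    (hO : ∀ i, i ≠ i0 → ∀ x ∈ K i, ∃ d, x d < lo d - δ ∨ hi d + δ < x d) :
    Reach K (Function.update (fun _ => id) i0 (sh j k α β)) := by
  intro s e hse
  have hse' : (0 : ℝ) < e - s := by
    have : (s : ℝ) < e := by exact_mod_cast hse
    linarith
  set Θ : ℝ → ℝ := fun t => F (((e - s)⁻¹ : ℚ) * t + (-s / (e - s) : ℚ)) with hΘ
  have hΘe : Eff1 Θ := eff1_F.affine _ _
  have hΘ' : ∀ t, Θ t = F ((t - s) / (e - s)) := by
    intro t
    simp only [hΘ]; congr 1; push_cast; field_simp; ring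
  have hd : ∀ t, HasDerivAt Θ (deriv Θ t) t := fun t =>
    (hΘe.smooth.differentiable (by simp) t).hasDerivAt
  have hθ0 : ∀ t, t ∉ Set.Ioo (s : ℝ) e → deriv Θ t = 0 := by
    intro t ht
    have h1 := (hasDerivAt_F _).comp t (((hasDerivAt_id t).sub_const (s : ℝ)).div_const (e - s))
    rw [funext hΘ']
    refine h1.deriv.trans ?_
    simp only [id]
    by_cases h : t ≤ s
    · have : (t - s) / (e - s) ≤ 0 := div_nonpos_of_nonpos_of_nonneg (by linarith) hse'.le
      rw [F_of_nonpos (by linarith), F_of_nonpos (by linarith)]; simp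
    · have h2 : (e : ℝ) ≤ t := by
        by_contra hc; exact ht ⟨not_le.1 h, not_le.1 hc⟩
      have : 1 ≤ (t - s) / (e - s) := by rw [one_le_div hse']; linarith
      rw [F_of_one_le (by linarith), F_of_one_le (by linarith)]; simp
  have hθs : HasCompactSupport (deriv Θ) :=
    HasCompactSupport.intro (isCompact_Icc (a := (s : ℝ)) (b := e)) fun t ht =>
      hθ0 t fun hh => ht ⟨hh.1.le, hh.2.le⟩
  obtain ⟨U, hU, hUd, hU1, hU2, hU3⟩ := exists_step j k hjk α β lo hi hlh δ hδ _ hΘe.deriv hθs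
  refine ⟨U, hU, hUd, fun p hp => hU3 p.1 p.2 (hθ0 _ hp), fun i => ?_⟩
  have hopen : IsOpen {x : V3 | ∀ d, lo d < x d ∧ x d < hi d} := by
    rw [Set.ofPred_forall]
    exact isOpen_iInter_of_finite fun d => (isOpen_lt continuous_const (continuous_apply d)).inter
      (isOpen_lt (continuous_apply d) continuous_const)
  by_cases hi0 : i = i0
  · subst hi0
    refine ⟨{x : V3 | ∀ d, lo d < x d ∧ x d < hi d} ∩
      sh j k α β ⁻¹' {x : V3 | ∀ d, lo d < x d ∧ x d < hi d},
      hopen.inter (hopen.preimage (continuous_sh _ _ _ _)), fun x hx => hK x hx, fun x hx => ?_⟩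
    refine ⟨fun t => x + (Θ t * (α * x k + β)) • (Pi.single j 1 : V3), fun t => ?_, fun t ht => ?_,
      fun t ht => ?_⟩
    · refine ((((hd t).mul_const ((α : ℝ) * x k + β)).smul_const
        (Pi.single j 1 : V3)).const_add x).congr_deriv ?_
      rw [hU1]
      · simp [Pi.single_eq_of_ne hjk.symm]
      · intro d
        have h0 : 0 ≤ Θ t := F_nonneg _
        have h1 : Θ t ≤ 1 := F_le_one _
        have h2 := hx.1 d
        have h3 := hx.2 d
        simp only [sh, Pi.add_apply, Pi.smul_apply, smul_eq_mul] at h3 ⊢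
        rw [mul_assoc]
        set y := ((α : ℝ) * x k + β) * (Pi.single j 1 : V3) d
        rcases le_total 0 y with hy | hy <;> constructor <;> nlinarith [h2.1, h2.2, h3.1, h3.2]
    · simp [hΘ', F_of_nonpos (div_nonpos_of_nonpos_of_nonneg (sub_nonpos.2 ht) hse'.le)]
    · have : 1 ≤ (t - s) / (e - s) := by rw [one_le_div hse']; linarith
      simp [hΘ', F_of_one_le this, sh]
  · refine ⟨{x : V3 | ∃ d, x d < lo d - δ ∨ hi d + δ < x d}, ?_, fun x hx => hO i hi0 x hx,
      fun x hx => ⟨fun _ => x, fun t => ?_, fun _ _ => rfl, fun _ _ => ?_⟩⟩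
    · rw [Set.ofPred_exists]
      exact isOpen_iUnion fun d => (isOpen_lt (continuous_apply d) continuous_const).union
        (isOpen_lt continuous_const (continuous_apply d))
    · rw [hU2 t x hx]; exact hasDerivAt_const t x
    · simp [Function.update_of_ne hi0]

/-- The basic step: a shear of one set inside a closed box that misses the other sets. -/
theorem Reach.step [DecidableEq ι] [Finite ι] (K : ι → Set V3) (hKc : ∀ i, IsCompact (K i)) (i0 : ι)
    (j k : Fin 3) (hjk : j ≠ k) (α β : ℚ) (lo hi : Fin 3 → ℚ) (hlh : ∀ d, lo d ≤ hi d)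
    (hK : ∀ x ∈ K i0, (∀ d, lo d ≤ x d ∧ x d ≤ hi d) ∧
      ∀ d, lo d ≤ sh j k α β x d ∧ sh j k α β x d ≤ hi d)
    (hO : ∀ i, i ≠ i0 → ∀ x ∈ K i, ∃ d, x d < lo d ∨ hi d < x d) :
    Reach K (Function.update (fun _ => id) i0 (sh j k α β)) := by
  have hc : IsCompact (⋃ i : {i // i ≠ i0}, K i) := isCompact_iUnion fun i => hKc i
  have hdis : Disjoint (⋃ i : {i // i ≠ i0}, K i) (Set.Icc (ratPoint lo) (ratPoint hi)) := by
    rw [Set.disjoint_left]
    intro x hx hx'
    obtain ⟨i, hi'⟩ := Set.mem_iUnion.1 hx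
    obtain ⟨d, hd | hd⟩ := hO i i.2 x hi'
    · exact not_le.2 hd (hx'.1 d)
    · exact not_le.2 hd (hx'.2 d)
  obtain ⟨ε, hε, hdis'⟩ := hdis.exists_cthickenings hc isClosed_Icc
  obtain ⟨δ, hδ0, hδ⟩ := exists_rat_btwn (half_pos hε)
  have hδ0' : 0 < δ := by exact_mod_cast hδ0
  refine Reach.step0 K i0 j k hjk α β (fun d => lo d - δ) (fun d => hi d + δ)
    (fun d => by linarith [hlh d]) δ hδ0' (fun x hx => ⟨fun d => ?_, fun d => ?_⟩) fun i hi' x hx => ?_
  · push_cast; constructor <;> linarith [((hK x hx).1 d).1, ((hK x hx).1 d).2]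
  · push_cast; constructor <;> linarith [((hK x hx).2 d).1, ((hK x hx).2 d).2]
  · by_contra hcon
    push Not at hcon
    refine Set.disjoint_left.1 hdis' (Metric.self_subset_cthickening _
      (Set.mem_iUnion.2 ⟨⟨i, hi'⟩, hx⟩)) ?_
    refine Metric.mem_cthickening_of_dist_le x (fun d => max (lo d : ℝ) (min (x d) (hi d))) ε _
      ⟨fun d => le_max_left _ _, fun d => max_le (Rat.cast_le.2 (hlh d)) (min_le_right _ _)⟩ ?_
    rw [dist_pi_le_iff hε.le]
    intro d
    have h1 := hcon d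
    push_cast at h1
    have h2 : (lo d : ℝ) ≤ hi d := by exact_mod_cast hlh d
    rw [Real.dist_eq, abs_le]
    rcases le_total (x d) (hi d) with h3 | h3
    · rw [min_eq_left h3]
      rcases le_total (lo d : ℝ) (x d) with h4 | h4
      · rw [max_eq_right h4]; constructor <;> linarith
      · rw [max_eq_left h4]; constructor <;> linarith [h1.1]
    · rw [min_eq_right h3, max_eq_right h2]; constructor <;> linarith [h1.2]

end Crest.Agent.R126
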