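import Mathlib
import Crest.Agent.R126.Step

/-! Motion planning for disjoint boxes. -/

set_option autoImplicit false
set_option linter.unusedVariables false
set_option linter.unusedSectionVars false

namespace Crest.Agent.R126

open Crest.AnalysisR.BoxFlow

variable {ι : Type} [DecidableEq ι] [Finite ι]

/-- The affine map between two boxes. -/
def aff (a h b k : Fin 3 → ℚ) (x : V3) : V3 :=
  fun j => (b j : ℝ) + ((k j / h j : ℚ) : ℝ) * (x j - (a j : ℝ))

/-- Reachability between two configurations of boxes. -/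
def RR (a h b k : ι → Fin 3 → ℚ) : Prop :=
  Reach (fun i => box (a i) (h i)) fun i => aff (a i) (h i) (b i) (k i)

theorem continuous_aff (a h b k : Fin 3 → ℚ) : Continuous (aff a h b k) := by
  unfold aff; fun_prop

theorem isCompact_box (c h : Fin 3 → ℚ) : IsCompact (box c h) := by
  have : box c h = Set.Icc (fun j => (c j : ℝ) - h j) (fun j => (c j : ℝ) + h j) := by
    ext x
    simp only [box, Set.mem_ofPred_eq, Set.mem_Icc, Pi.le_def, abs_le, ← forall_and]
    exact forall_congr' fun j => ⟨fun h => ⟨by linarith [h.1], by linarith [h.2]⟩,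
      fun h => ⟨by linarith [h.1], by linarith [h.2]⟩⟩
  rw [this]; exact isCompact_Icc

theorem aff_mapsTo (a h b k : Fin 3 → ℚ) (hh : ∀ j, 0 < h j) (hk : ∀ j, 0 < k j) :
    Set.MapsTo (aff a h b k) (box a h) (box b k) := by
  intro x hx j
  have h1 : (0 : ℝ) < h j := by exact_mod_cast hh j
  have h2 : (0 : ℝ) < k j := by exact_mod_cast hk j
  simp only [aff, add_sub_cancel_left, abs_mul, Rat.cast_div, abs_of_pos (div_pos h2 h1)]
  calc _ ≤ (k j : ℝ) / h j * h j := mul_le_mul_of_nonneg_left (hx j) (div_pos h2 h1).le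
    _ = _ := by field_simp

theorem aff_self (a h : Fin 3 → ℚ) (hh : ∀ j, 0 < h j) : aff a h a h = id := by
  funext x j
  simp [aff, div_self (hh j).ne']

theorem RR.refl (a h : ι → Fin 3 → ℚ) (hh : ∀ i j, 0 < h i j) : RR a h a h := by
  unfold RR
  simp only [aff_self _ _ (hh _)]
  exact Reach.refl _

theorem RR.trans {a h b k c l : ι → Fin 3 → ℚ} (h1 : RR a h b k) (h2 : RR b k c l)
    (hh : ∀ i j, 0 < h i j) (hk : ∀ i j, 0 < k i j) : RR a h c l := by
  have := Reach.trans h1 h2 (fun i => continuous_aff _ _ _ _) fun i => aff_mapsTo _ _ _ _ (hh i) (hk i)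
  unfold RR
  convert this using 2 with i
  funext x j
  have h1 : (h i j : ℝ) ≠ 0 := by exact_mod_cast (hh i j).ne'
  have h2 : (k i j : ℝ) ≠ 0 := by exact_mod_cast (hk i j).ne'
  simp only [aff, Function.comp, add_sub_cancel_left, Rat.cast_div]
  field_simp

/-- Separation of two boxes in coordinate `d`. -/
def Sep (h a : ι → Fin 3 → ℚ) (i i' : ι) (d : Fin 3) : Prop := h i d + h i' d < |a i d - a i' d|

/-- An elementary collision-free translation of one box along an axis. -/
def Elem (h a a' : ι → Fin 3 → ℚ) : Prop :=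
  ∃ i0 j, (∀ i d, (i ≠ i0 ∨ d ≠ j) → a' i d = a i d) ∧ ∀ i, i ≠ i0 →
    (∃ d, d ≠ j ∧ Sep h a i i0 d) ∨
      (h i j + h i0 j < a i j - a i0 j ∧ h i j + h i0 j < a i j - a' i0 j) ∨
      (h i j + h i0 j < a i0 j - a i j ∧ h i j + h i0 j < a' i0 j - a i j)

theorem Elem.symm {h a a' : ι → Fin 3 → ℚ} (H : Elem h a a') : Elem h a' a := by
  obtain ⟨i0, j, h1, h2⟩ := H
  refine ⟨i0, j, fun i d hid => (h1 i d hid).symm, fun i hi => ?_⟩
  rw [h1 i j (Or.inl hi)]
  rcases h2 i hi with ⟨d, hd, hs⟩ | h3 | h3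
  · refine Or.inl ⟨d, hd, ?_⟩
    unfold Sep at hs ⊢
    rwa [h1 i d (Or.inl hi), h1 i0 d (Or.inr hd)]
  · exact Or.inr (Or.inl h3.symm)
  · exact Or.inr (Or.inr h3.symm)

theorem Elem.rr {h a a' : ι → Fin 3 → ℚ} (H : Elem h a a') (hh : ∀ i j, 0 < h i j) :
    RR a h a' h := by
  obtain ⟨i0, j, h1, h2⟩ := H
  have hjk : j ≠ j + 1 := by fin_cases j <;> decide
  have e : aff (a i0) (h i0) (a' i0) (h i0) = sh j (j + 1) 0 (a' i0 j - a i0 j) := by
    funext x d
    by_cases hd : d = j
    · subst hd; simp [aff, sh, div_self (hh i0 d).ne']; ring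
    · simp [aff, sh, div_self (hh i0 d).ne', h1 i0 d (Or.inr hd), Pi.single_eq_of_ne hd]
  have := Reach.step (fun i => box (a i) (h i)) (fun i => isCompact_box _ _) i0 j (j + 1) hjk 0
    (a' i0 j - a i0 j) (fun d => min (a i0 d) (a' i0 d) - h i0 d)
    (fun d => max (a i0 d) (a' i0 d) + h i0 d)
    (fun d => by linarith [min_le_max (a := a i0 d) (b := a' i0 d), hh i0 d]) ?_ ?_
  · unfold RR
    convert this using 2 with i
    by_cases hi : i = i0
    · subst hi; simp [e]
    · have : a' i = a i := funext fun d => h1 i d (Or.inl hi)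
      rw [Function.update_of_ne hi, this, aff_self _ _ (hh i)]
  · intro x hx
    have hx' := aff_mapsTo (a i0) (h i0) (a' i0) (h i0) (hh i0) (hh i0) hx
    rw [e] at hx'
    refine ⟨fun d => ?_, fun d => ?_⟩
    · have := abs_le.1 (hx d)
      push_cast
      constructor <;> linarith [this.1, this.2, min_le_left (a i0 d : ℝ) (a' i0 d),
        le_max_left (a i0 d : ℝ) (a' i0 d)]
    · have := abs_le.1 (hx' d)
      push_cast
      constructor <;> linarith [this.1, this.2, min_le_right (a i0 d : ℝ) (a' i0 d),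
        le_max_right (a i0 d : ℝ) (a' i0 d)]
  · intro i hi x hx
    rcases h2 i hi with ⟨d, hd, hs⟩ | h3 | h3
    · refine ⟨d, ?_⟩
      have h4 := abs_le.1 (hx d)
      have h5 : (h i d : ℝ) + h i0 d < |(a i d : ℝ) - a i0 d| := by exact_mod_cast hs
      rw [h1 i0 d (Or.inr hd), min_self, max_self]
      push_cast
      rcases lt_abs.1 h5 with h6 | h6
      · right; linarith [h4.1]
      · left; linarith [h4.2]
    · refine ⟨j, Or.inr ?_⟩
      have h4 := abs_le.1 (hx j)
      have h5 : (h i j : ℝ) + h i0 j < a i j - a i0 j := by exact_mod_cast h3.1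
      have h6 : (h i j : ℝ) + h i0 j < a i j - a' i0 j := by exact_mod_cast h3.2
      push_cast
      rcases le_total (a i0 j : ℝ) (a' i0 j) with h7 | h7
      · rw [max_eq_right h7]; linarith [h4.1]
      · rw [max_eq_left h7]; linarith [h4.1]
    · refine ⟨j, Or.inl ?_⟩
      have h4 := abs_le.1 (hx j)
      have h5 : (h i j : ℝ) + h i0 j < a i0 j - a i j := by exact_mod_cast h3.1
      have h6 : (h i j : ℝ) + h i0 j < a' i0 j - a i j := by exact_mod_cast h3.2
      push_cast
      rcases le_total (a i0 j : ℝ) (a' i0 j) with h7 | h7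
      · rw [min_eq_left h7]; linarith [h4.2]
      · rw [min_eq_right h7]; linarith [h4.2]

/-- Chains of elementary moves. -/
def Mv (h : ι → Fin 3 → ℚ) : (ι → Fin 3 → ℚ) → (ι → Fin 3 → ℚ) → Prop :=
  Relation.ReflTransGen (Elem h)

theorem Mv.symm {h a a' : ι → Fin 3 → ℚ} (H : Mv h a a') : Mv h a' a := by
  induction H with
  | refl => exact Relation.ReflTransGen.refl
  | tail _ h2 ih => exact Relation.ReflTransGen.head h2.symm ih

theorem Mv.rr {h a a' : ι → Fin 3 → ℚ} (H : Mv h a a') (hh : ∀ i j, 0 < h i j) : RR a h a' h := by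
  induction H with
  | refl => exact RR.refl _ _ hh
  | tail _ h2 ih => exact ih.trans (h2.rr hh) hh hh

/-- Moving the boxes one after the other along the axis `j`. -/
theorem mv_seq (h a a' : ι → Fin 3 → ℚ) (j : Fin 3) (r : ι → ℕ) (hr : Function.Injective r)
    (h1 : ∀ i d, d ≠ j → a' i d = a i d)
    (h2 : ∀ i i0, i ≠ i0 → (∃ d, d ≠ j ∧ Sep h a i i0 d) ∨
      (h i j + h i0 j < (if r i < r i0 then a' i j else a i j) - a i0 j ∧
        h i j + h i0 j < (if r i < r i0 then a' i j else a i j) - a' i0 j) ∨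
      (h i j + h i0 j < a i0 j - (if r i < r i0 then a' i j else a i j) ∧
        h i j + h i0 j < a' i0 j - (if r i < r i0 then a' i j else a i j))) : Mv h a a' := by
  have key : ∀ m, Mv h a fun i => if r i < m then a' i else a i := by
    intro m
    induction m with
    | zero => simp only [Nat.not_lt_zero, if_false]; exact Relation.ReflTransGen.refl
    | succ m ih =>
      by_cases hm : ∃ i0, r i0 = m
      · obtain ⟨i0, rfl⟩ := hm
        refine Relation.ReflTransGen.tail ih ⟨i0, j, ?_, fun i hi => ?_⟩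
        · rintro i d (hi | hd)
          · have : r i ≠ r i0 := fun e => hi (hr e)
            by_cases h3 : r i < r i0
            · simp [h3, Nat.lt_succ_of_lt h3]
            · have : ¬ r i < r i0 + 1 := by omega
              simp [h3, this]
          · dsimp only
            split_ifs <;> simp [h1 i d hd]
        · rcases h2 i i0 hi with ⟨d, hd, hs⟩ | h3
          · refine Or.inl ⟨d, hd, ?_⟩
            unfold Sep at hs ⊢
            dsimp only
            split_ifs <;> simpa [h1 _ d hd] using hs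
          · right
            simpa [apply_ite (fun f : Fin 3 → ℚ => f j)] using h3
      · convert ih using 2 with i
        have : r i ≠ m := fun e => hm ⟨i, e⟩
        by_cases h3 : r i < m
        · simp [h3, Nat.lt_succ_of_lt h3]
        · have : ¬ r i < m + 1 := by omega
          simp [h3, this]
  obtain ⟨N, hN⟩ := (Set.finite_range r).bddAbove
  convert key (N + 1) using 2 with i
  rw [if_pos (Nat.lt_succ_of_le (hN ⟨i, rfl⟩))]

theorem mv_of_sep (h a a' : ι → Fin 3 → ℚ) (j d : Fin 3) (hd : d ≠ j)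
    (h1 : ∀ i d, d ≠ j → a' i d = a i d) (h2 : ∀ i i0, i ≠ i0 → Sep h a i i0 d) : Mv h a a' := by
  obtain ⟨r, hr⟩ := Countable.exists_injective_nat ι
  exact mv_seq h a a' j r hr h1 fun i i0 hi => Or.inl ⟨d, hd, h2 i i0 hi⟩

theorem sep_of_disjoint {h a : ι → Fin 3 → ℚ} (hh : ∀ i j, 0 < h i j) {i i' : ι}
    (H : Disjoint (box (a i) (h i)) (box (a i') (h i'))) : ∃ d, Sep h a i i' d := by
  by_contra hc
  simp only [Sep, not_exists, not_lt] at hc
  have H' := Set.disjoint_left.1 H
  refine @H' (fun d => max ((a i d : ℝ) - h i d) ((a i' d : ℝ) - h i' d)) (fun d => ?_) fun d => ?_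
  all_goals
    have h1 : |(a i d : ℝ) - a i' d| ≤ h i d + h i' d := by exact_mod_cast hc d
    have h2 : (0 : ℝ) < h i d := by exact_mod_cast hh i d
    have h3 : (0 : ℝ) < h i' d := by exact_mod_cast hh i' d
    rw [abs_le] at h1 ⊢
    dsimp only
    rcases le_total ((a i d : ℝ) - h i d) ((a i' d : ℝ) - h i' d) with h4 | h4
    · rw [max_eq_right h4]; constructor <;> linarith [h1.1, h1.2]
    · rw [max_eq_left h4]; constructor <;> linarith [h1.1, h1.2]

/-- The standard configuration. -/
def std (n : ℕ) (L : ℚ) (i : Fin n) : Fin 3 → ℚ := ![L * (i : ℕ), 0, 0]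

theorem le_abs_std {n : ℕ} {L : ℚ} (hL : 0 ≤ L) {i i' : Fin n} (hi : i ≠ i') :
    L ≤ |L * (i : ℕ) - L * (i' : ℕ)| := by
  rw [← mul_sub, abs_mul, abs_of_nonneg hL]
  refine le_mul_of_one_le_right hL ?_
  have h1 : ((i : ℕ) : ℤ) - (i' : ℕ) ≠ 0 := by
    intro h; exact hi (Fin.ext (by omega))
  exact_mod_cast Int.one_le_abs h1

theorem mv_std {n : ℕ} (h a : Fin n → Fin 3 → ℚ) (hh : ∀ i j, 0 < h i j)
    (ha : Pairwise fun i i' => Disjoint (box (a i) (h i)) (box (a i') (h i'))) (L : ℚ) (hL0 : 0 ≤ L)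
    (hL : ∀ i i' d, h i d + h i' d < L) : Mv h a (std n L) := by
  set σ := Tuple.sort fun i => -a i 2 with hσ
  have hmono : ∀ i i', σ.symm i ≤ σ.symm i' → a i' 2 ≤ a i 2 := by
    intro i i' hii
    have := Tuple.monotone_sort (fun i => -a i 2) hii
    simpa [← hσ] using this
  set r : Fin n → ℕ := fun i => σ.symm i with hr
  have hrinj : Function.Injective r := fun i i' e => σ.symm.injective (Fin.ext e)
  have hmono' : ∀ i i', r i ≤ r i' → a i' 2 ≤ a i 2 := fun i i' e => hmono i i' e
  have hrn : ∀ i, (r i : ℚ) ≤ n := fun i => by exact_mod_cast (σ.symm i).2.le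
  set a1 : Fin n → Fin 3 → ℚ := fun i => ![a i 0, a i 1, a i 2 + L * (n - r i)] with ha1
  set a2 : Fin n → Fin 3 → ℚ := fun i => ![L * (i : ℕ), a i 1, a i 2 + L * (n - r i)] with ha2
  set a3 : Fin n → Fin 3 → ℚ := fun i => ![L * (i : ℕ), 0, a i 2 + L * (n - r i)] with ha3
  have hz : ∀ i i0, i ≠ i0 →
      h i 2 + h i0 2 < |a i 2 + L * (n - r i) - (a i0 2 + L * (n - r i0))| := by
    intro i i0 hi
    have h1 := hL i i0 2
    rcases lt_or_gt_of_ne (fun e => hi (hrinj e) : r i ≠ r i0) with h2 | h2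
    · have h3 : (r i : ℚ) + 1 ≤ r i0 := by exact_mod_cast h2
      have h4 := hmono' i i0 h2.le
      exact lt_abs.2 (Or.inl (by nlinarith))
    · have h3 : (r i0 : ℚ) + 1 ≤ r i := by exact_mod_cast h2
      have h4 := hmono' i0 i h2.le
      exact lt_abs.2 (Or.inr (by nlinarith))
  have s1 : Mv h a a1 := by
    refine mv_seq h a a1 2 r hrinj (fun i d hd => ?_) fun i i0 hi => ?_
    · fin_cases d <;> simp_all
    obtain ⟨d, hd⟩ := sep_of_disjoint hh (ha hi)
    by_cases hd2 : d = 2
    · subst hd2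
      right
      have hp := add_pos (hh i 2) (hh i0 2)
      have e : ∀ i, a1 i 2 = a i 2 + L * (n - r i) := fun i => rfl
      rcases lt_abs.1 hd with h3 | h3
      · left
        have h4 : r i < r i0 := by
          by_contra hc
          linarith [hmono' i0 i (not_lt.1 hc)]
        have h5 : (r i : ℚ) ≤ r i0 := by exact_mod_cast h4.le
        rw [if_pos h4, e, e]
        constructor <;> nlinarith [hrn i]
      · right
        have h4 : ¬ r i < r i0 := by
          intro hc
          linarith [hmono' i i0 hc.le]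
        rw [if_neg h4, e]
        constructor <;> nlinarith [hrn i0]
    · exact Or.inl ⟨d, hd2, hd⟩
  have s2 : Mv h a1 a2 := by
    refine mv_of_sep h a1 a2 0 2 (by decide) (fun i d hd => ?_) fun i i0 hi => hz i i0 hi
    fin_cases d <;> simp_all
  have s3 : Mv h a2 a3 := by
    refine mv_of_sep h a2 a3 1 2 (by decide) (fun i d hd => ?_) fun i i0 hi => hz i i0 hi
    fin_cases d <;> simp_all
  have s4 : Mv h a3 (std n L) := by
    refine mv_of_sep h a3 (std n L) 2 0 (by decide) (fun i d hd => ?_) fun i i0 hi =>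
      (hL i i0 0).trans_le (le_abs_std hL0 hi)
    fin_cases d <;> simp_all [std]
  exact ((s1.trans s2).trans s3).trans s4

/-- Linear maps realised locally about any rational centre. -/
def LocReach (ι : Type) [DecidableEq ι] (M : V3 → V3) : Prop :=
  Continuous M ∧ ∀ ρ0 : ℚ, 0 ≤ ρ0 → ∃ ρ1 ρ : ℚ, 0 ≤ ρ1 ∧
    (∀ x : V3, (∀ d, |x d| ≤ ρ0) → ∀ d, |M x d| ≤ ρ1) ∧
    ∀ (K : ι → Set V3) (i0 : ι) (c : Fin 3 → ℚ), (∀ i, IsCompact (K i)) →
      K i0 ⊆ box c (fun _ => ρ0) → (∀ i, i ≠ i0 → Disjoint (K i) (box c fun _ => ρ)) →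
      Reach K (Function.update (fun _ => id) i0 fun x => ratPoint c + M (x - ratPoint c))

theorem box_mono (c : Fin 3 → ℚ) {ρ ρ' : ℚ} (h : ρ ≤ ρ') :
    box c (fun _ => ρ) ⊆ box c fun _ => ρ' :=
  fun x hx d => (hx d).trans (Rat.cast_le.2 h)

theorem LocReach.comp {M M' : V3 → V3} (h : LocReach ι M) (h' : LocReach ι M') :
    LocReach ι (M' ∘ M) := by
  refine ⟨h'.1.comp h.1, fun ρ0 h0 => ?_⟩
  obtain ⟨ρ1, ρ, h1, h2, h3⟩ := h.2 ρ0 h0
  obtain ⟨ρ1', ρ', h1', h2', h3'⟩ := h'.2 ρ1 h1
  refine ⟨ρ1', max ρ ρ', h1', fun x hx => h2' _ (h2 x hx), fun K i0 c hK hK0 hd => ?_⟩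
  have hc : Continuous fun x => ratPoint c + M (x - ratPoint c) := by
    have := h.1; fun_prop
  have s1 := h3 K i0 c hK hK0 fun i hi => (hd i hi).mono_right (box_mono c (le_max_left _ _))
  have s2 := h3' (Function.update K i0 ((fun x => ratPoint c + M (x - ratPoint c)) '' K i0)) i0 c
    (fun i => ?_) ?_ fun i hi => ?_
  · have := s1.trans s2 (fun i => ?_) fun i => ?_
    · convert this using 2 with i
      by_cases hi : i = i0
      · subst hi; funext x; simp
      · simp [Function.update_of_ne hi]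
    · by_cases hi : i = i0
      · subst hi; simpa using hc
      · simpa [Function.update_of_ne hi] using continuous_id
    · by_cases hi : i = i0
      · subst hi; simpa using Set.mapsTo_image _ _
      · simpa [Function.update_of_ne hi] using Set.mapsTo_id _
  · by_cases hi : i = i0
    · subst hi; simpa using (hK i).image hc
    · simpa [Function.update_of_ne hi] using hK i
  · rw [Function.update_self]
    rintro _ ⟨x, hx, rfl⟩ d
    simpa [ratPoint] using h2 (x - ratPoint c) (fun d => hK0 hx d) d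
  · rw [Function.update_of_ne hi]
    exact (hd i hi).mono_right (box_mono c (le_max_right _ _))

theorem locReach_sh (j k : Fin 3) (hjk : j ≠ k) (α : ℚ) : LocReach ι (sh j k α 0) := by
  refine ⟨continuous_sh _ _ _ _, fun ρ0 h0 => ?_⟩
  have h0' : (0 : ℝ) ≤ ρ0 := by exact_mod_cast h0
  have hb : ∀ x : V3, (∀ d, |x d| ≤ ρ0) →
      ∀ d, |sh j k α 0 x d| ≤ (((1 + |α|) * ρ0 : ℚ) : ℝ) := by
    intro x hx d
    have h1 : |(α : ℝ) * x k| ≤ |(α : ℝ)| * ρ0 := by
      rw [abs_mul]; exact mul_le_mul_of_nonneg_left (hx k) (abs_nonneg _)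
    have h2 : 0 ≤ |(α : ℝ)| * ρ0 := by positivity
    push_cast
    simp only [sh, Rat.cast_zero, add_zero, Pi.add_apply, Pi.smul_apply, smul_eq_mul,
      Pi.single_apply]
    split_ifs
    · rw [mul_one]; linarith [abs_add_le (x d) (α * x k), hx d]
    · rw [mul_zero, add_zero]; linarith [hx d]
  have hρ : 0 ≤ (1 + |α|) * ρ0 := by positivity
  have hρ' : ρ0 ≤ (1 + |α|) * ρ0 := by nlinarith [abs_nonneg α]
  refine ⟨(1 + |α|) * ρ0, (1 + |α|) * ρ0, hρ, hb, fun K i0 c hK hK0 hd => ?_⟩
  have e : (fun x => ratPoint c + sh j k α 0 (x - ratPoint c)) = sh j k α (-α * c k) := by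
    funext x d
    simp only [sh, ratPoint, Pi.add_apply, Pi.sub_apply, Pi.smul_apply, smul_eq_mul]
    push_cast; ring
  rw [e]
  refine Reach.step K hK i0 j k hjk α _ (fun d => c d - (1 + |α|) * ρ0)
    (fun d => c d + (1 + |α|) * ρ0) (fun d => by linarith) (fun x hx => ⟨fun d => ?_, fun d => ?_⟩)
    fun i hi x hx => ?_
  · have := abs_le.1 (box_mono c hρ' (hK0 hx) d)
    rw [Rat.cast_sub, Rat.cast_add]
    constructor <;> linarith [this.1, this.2]
  · have := abs_le.1 (hb (x - ratPoint c) (fun d => hK0 hx d) d)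
    rw [Rat.cast_sub, Rat.cast_add, ← e]
    simp only [Pi.add_apply, ratPoint] at this ⊢
    constructor <;> linarith [this.1, this.2]
  · by_contra hc
    push Not at hc
    refine Set.disjoint_left.1 (hd i hi) hx fun d => ?_
    have := hc d
    rw [Rat.cast_sub, Rat.cast_add] at this
    rw [abs_le]; constructor <;> linarith [this.1, this.2]

theorem locReach_diag (r : Fin 3 → ℚ) (hr : ∀ d, 0 < r d) (h1 : ∏ d, r d = 1) :
    LocReach ι fun x d => (r d : ℝ) * x d := by
  have s1 := (((locReach_sh (ι := ι) 1 0 (by decide) (-r 0)).comp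
    (locReach_sh 0 1 (by decide) (1 / r 0 - 1))).comp (locReach_sh 1 0 (by decide) 1)).comp
    (locReach_sh 0 1 (by decide) (r 0 - 1))
  have s2 := (((locReach_sh (ι := ι) 1 2 (by decide) (-r 2)).comp
    (locReach_sh 2 1 (by decide) (1 / r 2 - 1))).comp (locReach_sh 1 2 (by decide) 1)).comp
    (locReach_sh 2 1 (by decide) (r 2 - 1))
  have h0 : (r 0 : ℝ) ≠ 0 := by exact_mod_cast (hr 0).ne'
  have h2 : (r 2 : ℝ) ≠ 0 := by exact_mod_cast (hr 2).ne'
  have h3 : (r 1 : ℝ) = 1 / (r 0 * r 2) := by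
    rw [Fin.prod_univ_three] at h1
    have : (r 0 : ℝ) * r 1 * r 2 = 1 := by exact_mod_cast h1
    field_simp; linarith
  convert s1.comp s2 using 1
  funext x d
  fin_cases d <;> simp [sh, h3] <;> field_simp <;> ring

theorem rr_reshape {n : ℕ} (h k : Fin n → Fin 3 → ℚ) (hh : ∀ i j, 0 < h i j) (hk : ∀ i j, 0 < k i j)
    (hvol : ∀ i, ∏ j : Fin 3, k i j / h i j = 1) :
    ∃ L0 : ℚ, ∀ L, L0 ≤ L → RR (std n L) h (std n L) k := by
  have hs : ∀ i d, h i d ≤ ∑ d, h i d := fun i d =>
    Finset.single_le_sum (fun d _ => (hh i d).le) (Finset.mem_univ d)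
  choose ρ1 ρ h1 h2 h3 using fun i => (locReach_diag (ι := Fin n) (fun j => k i j / h i j)
    (fun j => div_pos (hk i j) (hh i j)) (hvol i)).2 (∑ d, h i d)
    (Finset.sum_nonneg fun d _ => (hh i d).le)
  obtain ⟨B, hB⟩ := (Set.finite_range fun p : Fin n × Fin n =>
    ρ p.1 + h p.2 0 + k p.2 0).bddAbove
  refine ⟨max (B + 1) 0, fun L hL => ?_⟩
  have hL0 : 0 ≤ L := (le_max_right _ _).trans hL
  have hL1 : B + 1 ≤ L := (le_max_left _ _).trans hL
  have key : ∀ S : Finset (Fin n),
      RR (std n L) h (std n L) fun i => if i ∈ S then k i else h i := by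
    intro S
    have hpos : ∀ (S : Finset (Fin n)) i j, 0 < (if i ∈ S then k i else h i) j := by
      intro S i j; split_ifs; exacts [hk i j, hh i j]
    induction S using Finset.induction_on with
    | empty => simpa using RR.refl _ _ hh
    | insert i0 S hi0 ih =>
      refine ih.trans ?_ hh (hpos S)
      have := h3 i0 (fun i => box (std n L i) (if i ∈ S then k i else h i)) i0 (std n L i0)
        (fun i => isCompact_box _ _) ?_ ?_
      · unfold RR
        convert this using 2 with i
        by_cases hi : i = i0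
        · subst hi
          funext x d
          simp [aff, hi0, ratPoint]
        · simp only [Finset.mem_insert, hi, false_or, Function.update_of_ne hi]
          exact aff_self _ _ (hpos S i)
      · simp only [hi0, if_false]
        exact fun x hx d => (hx d).trans (Rat.cast_le.2 (hs i0 d))
      · intro i hi
        rw [Set.disjoint_left]
        intro x hx hx'
        have h4 := abs_le.1 (hx 0)
        have h5 := abs_le.1 (hx' 0)
        have h6 := le_abs_std hL0 hi
        have h7 : ρ i0 + h i 0 + k i 0 ≤ B := hB ⟨(i0, i), rfl⟩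
        have h8 : (if i ∈ S then k i else h i) 0 ≤ h i 0 + k i 0 := by
          split_ifs <;> linarith [hh i 0, hk i 0]
        have h9 : ρ i0 + (if i ∈ S then k i else h i) 0 < |std n L i 0 - std n L i0 0| := by
          change _ < |L * (i : ℕ) - L * (i0 : ℕ)|
          linarith
        have h10 : (ρ i0 : ℝ) + ((if i ∈ S then k i else h i) 0 : ℚ) <
            |(std n L i 0 : ℝ) - std n L i0 0| := by exact_mod_cast h9
        rcases lt_abs.1 h10 with h11 | h11 <;> linarith [h4.1, h4.2, h5.1, h5.2]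
  simpa using key Finset.univ

theorem rr_all {n : ℕ} (a b h k : Fin n → Fin 3 → ℚ) (hh : ∀ i j, 0 < h i j) (hk : ∀ i j, 0 < k i j)
    (ha : Pairwise fun i i' => Disjoint (box (a i) (h i)) (box (a i') (h i')))
    (hb : Pairwise fun i i' => Disjoint (box (b i) (k i)) (box (b i') (k i')))
    (hvol : ∀ i, ∏ j : Fin 3, k i j / h i j = 1) : RR a h b k := by
  obtain ⟨L0, hL0⟩ := rr_reshape h k hh hk hvol
  obtain ⟨B, hB⟩ := (Set.finite_range fun p : Fin n × Fin n × Fin 3 =>
    h p.1 p.2.2 + h p.2.1 p.2.2 + (k p.1 p.2.2 + k p.2.1 p.2.2)).bddAbove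
  set L := max L0 (max (B + 1) 0) with hL
  have h0 : 0 ≤ L := (le_max_right _ _).trans (le_max_right _ _)
  have h1 : B + 1 ≤ L := (le_max_left _ _).trans (le_max_right _ _)
  have h2 : ∀ i i' d, h i d + h i' d + (k i d + k i' d) ≤ B := fun i i' d => hB ⟨(i, i', d), rfl⟩
  have s1 := mv_std h a hh ha L h0 fun i i' d => by linarith [h2 i i' d, hk i d, hk i' d]
  have s2 := mv_std k b hk hb L h0 fun i i' d => by linarith [h2 i i' d, hh i d, hh i' d]
  exact ((s1.rr hh).trans (hL0 L (le_max_left _ _)) hh hh).trans (s2.symm.rr hk) hh hk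

end Crest.Agent.R126
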