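import Mathlib
import Crest.Agent.R126.Plan

/-! Global flows of smooth compactly supported fields active in `(0, 1)`. -/

set_option autoImplicit false
set_option linter.unusedVariables false

namespace Crest.Agent.R126

open Crest.AnalysisR.BoxFlow Filter Topology
open scoped ContDiff NNReal

theorem exists_flow (U : Field) (hU : ContDiff ℝ ∞ U) (hs : HasCompactSupport U)
    (ht : ∀ p : ℝ × V3, p.1 ∉ Set.Ioo (0 : ℝ) 1 → U p = 0) :
    ∃ Φ : ℝ → V3 → V3, IsFlow U Φ ∧ ∀ (x : V3) (γ : ℝ → V3), (∀ t, HasDerivAt γ (U (t, γ t)) t) →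
      γ 0 = x → ∀ t, Φ t x = γ t := by
  obtain ⟨K, hK⟩ := hU.lipschitzWith_of_hasCompactSupport hs (by simp)
  obtain ⟨L, hL⟩ := hs.exists_bound_of_continuous hU.continuous
  have hL0 : 0 ≤ L := (norm_nonneg _).trans (hL 0)
  have hlip : ∀ t, LipschitzWith K fun x : V3 => U (t, x) := fun t => by
    have := hK.comp (LipschitzWith.prodMk_left t)
    rw [mul_one] at this
    exact this
  have key : ∀ x : V3, ∃ γ : ℝ → V3, γ 0 = x ∧ ∀ t, HasDerivAt γ (U (t, γ t)) t := by
    intro x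
    have hPL : IsPicardLindelof (fun t x => U (t, x)) (tmin := 0) (tmax := 1)
        ⟨0, le_rfl, zero_le_one⟩ x ⟨L, hL0⟩ 0 ⟨L, hL0⟩ K :=
      ⟨fun t _ => (hlip t).lipschitzOnWith, fun y _ =>
        (hU.continuous.comp (by fun_prop)).continuousOn, fun t _ y _ => hL _, by simp⟩
    obtain ⟨α, h0, hα⟩ := hPL.exists_eq_forall_mem_Icc_hasDerivWithinAt₀
    set γ : ℝ → V3 := fun t => α (max 0 (min t 1)) with hγ
    have hmid : ∀ t ∈ Set.Icc (0 : ℝ) 1, γ t = α t := fun t ht => by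
      simp only [hγ, min_eq_left ht.2, max_eq_right ht.1]
    have h1 : ∀ t ∈ Set.Icc (0 : ℝ) 1, HasDerivWithinAt γ (U (t, γ t)) (Set.Icc 0 1) t := by
      intro t ht
      rw [hmid t ht]
      exact (hα t ht).congr hmid (hmid t ht)
    have h2 : ∀ t ∈ Set.Iic (0 : ℝ), HasDerivWithinAt γ (U (t, γ t)) (Set.Iic 0) t := by
      intro t ht'
      rw [ht (t, _) fun hh => not_lt.2 ht' hh.1]
      have e : ∀ s ∈ Set.Iic (0 : ℝ), γ s = α 0 := fun s hs => by
        simp only [hγ, max_eq_left ((min_le_left s 1).trans hs)]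
      exact (hasDerivWithinAt_const t _ (α 0)).congr e (e t ht')
    have h3 : ∀ t ∈ Set.Ici (1 : ℝ), HasDerivWithinAt γ (U (t, γ t)) (Set.Ici 1) t := by
      intro t ht'
      rw [ht (t, _) fun hh => not_lt.2 ht' hh.2]
      have e : ∀ s ∈ Set.Ici (1 : ℝ), γ s = α 1 := fun s hs => by
        simp only [hγ, min_eq_right (show (1 : ℝ) ≤ s from hs), max_eq_right zero_le_one]
      exact (hasDerivWithinAt_const t _ (α 1)).congr e (e t ht')
    have h4 : ∀ (S : Set ℝ), IsClosed S → ∀ t, (t ∈ S → HasDerivWithinAt γ (U (t, γ t)) S t) →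
        HasDerivWithinAt γ (U (t, γ t)) S t := by
      intro S hS t h
      by_cases hm : t ∈ S
      · exact h hm
      · exact HasFDerivWithinAt.of_notMem_closure (by rwa [hS.closure_eq])
    refine ⟨γ, (hmid 0 ⟨le_rfl, zero_le_one⟩).trans h0, fun t => ?_⟩
    have := ((h4 _ isClosed_Iic t (h2 t)).union (h4 _ isClosed_Icc t (h1 t))).union
      (h4 _ isClosed_Ici t (h3 t))
    rwa [Set.Iic_union_Icc_eq_Iic zero_le_one, Set.Iic_union_Ici, hasDerivWithinAt_univ] at this
  choose γ h0 h1 using key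
  refine ⟨fun t x => γ x t, ⟨h0, fun t x => h1 x t⟩, fun x γ' h1' h0' t => ?_⟩
  have := ODE_solution_unique_univ (v := fun t x => U (t, x)) (s := fun _ => Set.univ)
    (fun t => (hlip t).lipschitzOnWith) (fun t => ⟨h1 x t, trivial⟩) (fun t => ⟨h1' t, trivial⟩)
    ((h0 x).trans h0'.symm)
  exact congrFun this t

end Crest.Agent.R126
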